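import Vale.Agent.P047.Swap

namespace Vale.Agent.P047

open Classical

noncomputable section

namespace Sp

variable {X : Sp} {z : X.Ω → ℝ} {δ η : ℝ}

def Pr (z : X.Ω → ℝ) (lo hi : ℝ) : ℝ := X.E (fun x => if lo ≤ z x ∧ z x < hi then 1 else 0)

lemma Pr_nonneg (lo hi : ℝ) : 0 ≤ Pr z lo hi := E_nonneg fun x => by split_ifs <;> norm_num

lemma Pr_le_add (a b c : ℝ) : Pr z a c ≤ Pr z a b + Pr z b c := by
  unfold Pr
  rw [← E_add]
  refine E_mono fun x => ?_
  split_ifs with h1 h2 h3 h3 <;> try norm_num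
  rcases lt_or_ge (z x) b with h | h
  · exact h2 ⟨h1.1, h⟩
  · exact h3 ⟨h, h1.2⟩

lemma pigeon (lo u : ℝ) (hu : 0 < u) (c : ℕ) : ∃ l, lo ≤ l ∧ l + u ≤ lo + (c + 1) * u ∧
    Pr z lo (lo + (c + 1) * u) ≤ (c + 1) * Pr z l (l + u) := by
  induction c with
  | zero => exact ⟨lo, le_rfl, by simp, by simp⟩
  | succ c ih =>
    obtain ⟨l, h1, h2, h3⟩ := ih
    have hc : (0 : ℝ) ≤ c := Nat.cast_nonneg c
    have h4 := Pr_le_add (z := z) lo (lo + (c + 1) * u) (lo + (c + 1) * u + u)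
    have e : lo + ((c + 1 : ℕ) + 1) * u = lo + (c + 1) * u + u := by push_cast; ring
    rw [e]
    push_cast
    rcases le_total (Pr z (lo + (c + 1) * u) (lo + (c + 1) * u + u)) (Pr z l (l + u)) with h | h
    · exact ⟨l, h1, by linarith, by linarith⟩
    · refine ⟨lo + (c + 1) * u, by nlinarith, le_rfl, ?_⟩
      nlinarith

/-- `a` is the conditional mean on the bin `[l, l+u)`. -/
structure Bin (z : X.Ω → ℝ) (u l a : ℝ) : Prop where
  lo : l ≤ a
  hi : a ≤ l + u
  mean : X.E (fun x => (if l ≤ z x ∧ z x < l + u then 1 else 0) * (z x - a)) = 0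
  var : X.E (fun x => (if l ≤ z x ∧ z x < l + u then 1 else 0) * (z x - a) ^ 2) ≤
    u ^ 2 * Pr z l (l + u)

lemma bin_exists (u l : ℝ) (hp : 0 < Pr z l (l + u)) : ∃ a, Bin z u l a := by
  set m := X.E (fun x => (if l ≤ z x ∧ z x < l + u then 1 else 0) * z x) with hm
  have h1 : l ≤ m / Pr z l (l + u) := by
    rw [le_div_iff₀ hp, Pr, ← E_cmul]
    refine E_mono fun x => ?_
    split_ifs with h
    · simpa using h.1
    · simp
  have h2 : m / Pr z l (l + u) ≤ l + u := by
    rw [div_le_iff₀ hp, Pr, ← E_cmul]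
    refine E_mono fun x => ?_
    split_ifs with h
    · simpa using h.2.le
    · simp
  refine ⟨m / Pr z l (l + u), h1, h2, ?_, ?_⟩
  · simp only [mul_sub]
    rw [E_sub, E_mulc, ← hm]
    show m - Pr z l (l + u) * _ = 0
    field_simp; ring
  · rw [Pr, ← E_cmul]
    refine E_mono fun x => ?_
    split_ifs with h
    · rw [← Pr]
      nlinarith [h.1, h.2]
    · simp

lemma heavy (hN : Nice X z δ η) {b w u : ℝ} {c : ℕ} (hw : 0 < w) (hu : 0 < u)
    (hc : (c + 1) * u = 3 * w) (hδ : 0 ≤ δ) (hb : δ * (b + δ + 2 * w) ≤ 2)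
    (hP : 2 * (1 / w ^ 2 * η) ≤ X.E (fun x => if b ≤ z x ∧ z x ≤ b + w then 1 else 0)) :
    ∃ l, b + δ - w ≤ l ∧ l + u ≤ b + δ + 2 * w ∧
      X.E (fun x => if b ≤ z x ∧ z x ≤ b + w then 1 else 0) ≤ 18 * (c + 1) * Pr z l (l + u) := by
  obtain ⟨l, h1, h2, h3⟩ := pigeon (z := z) (b + δ - w) u hu c
  rw [hc] at h2 h3
  refine ⟨l, h1, by linarith, ?_⟩
  have h4 := hN.shift (fun t => if b ≤ t ∧ t ≤ b + w then 1 else 0)
    (fun t => if b + δ - w ≤ t ∧ t < b + δ - w + 3 * w then 1 else 0) (1 / w ^ 2) (by positivity)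
    (fun t => by split_ifs <;> norm_num) (fun t t' => by
      have q : 0 ≤ 1 / w ^ 2 * (t' - t - δ) ^ 2 := by positivity
      split_ifs with a1 a2 a2
      · linarith
      · have : w ^ 2 ≤ (t' - t - δ) ^ 2 := by
          rcases not_and_or.1 a2 with a | a
          · have := not_le.1 a; nlinarith [a1.1, a1.2]
          · have := not_lt.1 a; nlinarith [a1.1, a1.2]
        rw [zero_add, one_div, ← div_eq_inv_mul, le_div_iff₀ (by positivity)]; linarith
      · linarith
      · linarith)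
  have h5 : X.E (fun x => (if b + δ - w ≤ z x ∧ z x < b + δ - w + 3 * w then 1 else 0) *
      Real.exp (δ * z x)) ≤ 9 * Pr z (b + δ - w) (b + δ - w + 3 * w) := by
    rw [Pr, ← E_cmul]
    refine E_mono fun x => ?_
    split_ifs with h
    · have a1 : δ * z x ≤ 1 + 1 := by nlinarith [h.2]
      have a2 := Real.exp_le_exp.2 a1
      rw [Real.exp_add] at a2
      have a3 := Real.exp_one_lt_d9
      have a4 := Real.exp_pos 1
      nlinarith
    · simp
  nlinarith

lemma center (hN : Nice X z δ η) {u : ℝ} {c : ℕ} (hu : 0 < u) (hc : (c + 1) * u = 4) :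
    ∃ l, -2 ≤ l ∧ l + u ≤ 2 ∧ 3 * u / 16 ≤ Pr z l (l + u) := by
  obtain ⟨l, h1, h2, h3⟩ := pigeon (z := z) (-2) u hu c
  rw [hc] at h2 h3
  refine ⟨l, h1, by linarith, ?_⟩
  have h4 : X.E (fun x => 1 - 1 / 4 * z x ^ 2) ≤ Pr z (-2) (-2 + 4) := by
    refine E_mono fun x => ?_
    split_ifs with h
    · nlinarith [sq_nonneg (z x)]
    · rcases not_and_or.1 h with a | a
      · have := not_le.1 a; nlinarith
      · have := not_lt.1 a; nlinarith
  rw [E_sub, E_const, E_cmul, hN.var] at h4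
  have h5 := mul_le_mul_of_nonneg_left (h4.trans h3) hu.le
  have h6 : u * ((c + 1) * Pr z l (l + u)) = 4 * Pr z l (l + u) := by rw [← hc]; ring
  linarith

lemma even_moment (hN : Nice X z δ η) (n : ℕ) :
    X.E (fun x => |z x| ^ n) ≤ 6 * n.factorial := by
  have h : ∀ x, |z x| ^ n ≤ n.factorial * (Real.exp (z x) + Real.exp (- z x)) := by
    intro x
    have h1 := Real.pow_div_factorial_le_exp |z x| (abs_nonneg _) n
    have h2 : Real.exp |z x| ≤ Real.exp (z x) + Real.exp (- z x) := by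
      have := Real.exp_pos (z x); have := Real.exp_pos (- z x)
      rcases abs_choice (z x) with a | a <;> rw [a] <;> linarith
    have h3 : (0 : ℝ) < n.factorial := by exact_mod_cast n.factorial_pos
    rw [div_le_iff₀ h3] at h1
    nlinarith
  have h2 := E_mono h
  rw [E_cmul, E_add] at h2
  have h3 : (0 : ℝ) < n.factorial := by exact_mod_cast n.factorial_pos
  nlinarith [hN.ep, hN.em]

lemma tail (hN : Nice X z δ η) {T : ℝ} (hT : 0 < T) :
    X.E (fun x => if T ≤ |z x| then z x ^ 2 else 0) ≤ 1 / T ^ 28 * (6 * (30 : ℕ).factorial) := by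
  refine le_trans ?_ (mul_le_mul_of_nonneg_left (even_moment hN 30) (by positivity))
  rw [← E_cmul]
  refine E_mono fun x => ?_
  split_ifs with h
  · rw [one_div, ← div_eq_inv_mul, le_div_iff₀ (by positivity), ← sq_abs]
    have := pow_le_pow_left₀ hT.le h 28
    calc _ ≤ |z x| ^ 2 * |z x| ^ 28 := mul_le_mul_of_nonneg_left this (sq_nonneg _)
      _ = _ := by ring
  · positivity

lemma abs_mean (hN : Nice X z δ η) : 1 / 32 ≤ X.E (fun x => |z x|) := by
  have h1 := even_moment hN 4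
  have h2 : X.E (fun x => 1 / 24 * z x ^ 2 - 1 / 24 ^ 3 * |z x| ^ 4) ≤ X.E (fun x => |z x|) := by
    refine E_mono fun x => ?_
    rw [← sq_abs]
    have h := abs_nonneg (z x)
    generalize |z x| = y at h ⊢
    rcases le_total y 24 with a | a
    · have : 0 ≤ y ^ 4 := by positivity
      nlinarith
    · have : 24 ^ 2 ≤ y ^ 2 := by nlinarith
      nlinarith
  rw [E_sub, E_cmul, E_cmul, hN.var] at h2
  norm_num [Nat.factorial] at h1
  linarith

end Sp

end

end Vale.Agent.P047
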