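import Vale.Agent.P047.Improve

namespace Vale.Agent.P047

open Classical

noncomputable section

namespace Sp

@[reducible] def cube (n : ℕ) : Sp where
  Ω := Fin n → Bool
  ι := Fin n
  e := Equiv.refl _

lemma low_fourier {n D : ℕ} {f : (Fin n → Bool) → ℝ} (hf : (cube n).Low D f) (S : Finset (Fin n))
    (hS : D < S.card) : fourier f S = 0 := by
  unfold fourier
  rw [div_eq_zero_iff]
  left
  induction hf using Submodule.span_induction with
  | mem f hf =>
    obtain ⟨T, hT, h1⟩ := hf
    obtain ⟨i, hiS, hiT⟩ := Finset.exists_mem_notMem_of_card_lt_card (hT.trans_lt hS)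
    have inv : Function.Involutive (fun x : Fin n → Bool => Function.update x i (!x i)) := by
      intro x; simp
    have h2 : ∑ x : Fin n → Bool, f (Function.update x i (!x i)) *
        ∏ l ∈ S, sg (Function.update x i (!x i) l) = ∑ x : Fin n → Bool, f x * ∏ l ∈ S, sg (x l) :=
      Equiv.sum_comp inv.toPerm (fun x : Fin n → Bool => f x * ∏ l ∈ S, sg (x l))
    have h3 : ∀ x : Fin n → Bool, f (Function.update x i (!x i)) *
        ∏ l ∈ S, sg (Function.update x i (!x i) l) = - (f x * ∏ l ∈ S, sg (x l)) := by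
      intro x
      have a1 : f (Function.update x i (!x i)) = f x := h1 _ _ fun l hl => by
        have : l ≠ i := fun h => hiT (h ▸ hl)
        simp [Function.update_of_ne this]
      rw [a1, ← Finset.mul_prod_erase S _ hiS, ← Finset.mul_prod_erase S _ hiS]
      have a2 : ∏ l ∈ S.erase i, sg (Function.update x i (!x i) l) = ∏ l ∈ S.erase i, sg (x l) :=
        Finset.prod_congr rfl fun l hl => by
          simp [Function.update_of_ne (Finset.ne_of_mem_erase hl)]
      rw [a2]
      simp [sg_not]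
    simp only [h3, Finset.sum_neg_distrib] at h2
    linarith
  | zero => simp
  | add f g _ _ h1 h2 => simp only [Pi.add_apply, add_mul, Finset.sum_add_distrib, h1, h2, add_zero]
  | smul c f _ h1 =>
    simp only [Pi.smul_apply, smul_eq_mul, mul_assoc, ← Finset.mul_sum, h1, mul_zero]

lemma low_deg {n D : ℕ} {f : (Fin n → Bool) → ℝ} (hf : (cube n).Low D f) : deg f ≤ D := by
  unfold deg
  refine Finset.sup_le fun S hS => ?_
  by_contra h
  exact (Finset.mem_filter.1 hS).2 (low_fourier hf S (not_le.1 h))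

lemma transport (X : Sp) (b : X.Ω → ℝ) (D : ℕ) (hl : X.Low D b) (hb : ∀ x, b x = 1 ∨ b x = -1)
    (hpos : 0 < X.E (fun x => b x * X.s x)) :
    ∃ n : ℕ, 1 ≤ n ∧ ∃ f : (Fin n → Bool) → ℝ, IsBoolean f ∧ deg f ≤ D ∧
      ∑ i, fourier f {i} = X.E (fun x => b x * X.s x) := by
  set n := Fintype.card X.ι with hn
  let ε : X.ι ≃ Fin n := Fintype.equivFin X.ι
  let φ : (Fin n → Bool) ≃ X.Ω := (Equiv.arrowCongr ε.symm (Equiv.refl Bool)).trans X.e.symm
  have hφ : ∀ y i, X.e (φ y) i = y (ε i) := fun y i => by simp [φ]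
  have key : ∑ i, fourier (fun y => b (φ y)) {i} = X.E (fun x => b x * X.s x) := by
    unfold fourier E
    rw [← Finset.sum_div, Finset.sum_comm, ← Equiv.sum_comp φ, ← Fintype.card_congr φ]
    congr 1
    · refine Finset.sum_congr rfl fun y _ => ?_
      simp only [Finset.prod_singleton, ← Finset.mul_sum, s, hφ]
      rw [Equiv.sum_comp ε (fun j => sg (y j))]
    · simp
  refine ⟨n, ?_, fun y => b (φ y), fun y => hb _, low_deg ?_, key⟩
  · by_contra h
    have h0 : n = 0 := by omega
    rw [← key] at hpos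
    have : IsEmpty (Fin n) := by rw [h0]; infer_instance
    simp at hpos
  · exact hl.pull (Y := cube n) φ ε (fun y y' i h => by rw [hφ, hφ]; exact h)

end Sp

theorem not_sqrt_bound (C : ℝ) : ∃ n : ℕ, 1 ≤ n ∧ ∃ f : (Fin n → Bool) → ℝ, IsBoolean f ∧
    C * Real.sqrt (deg f) < ∑ i, fourier f {i} := by
  obtain ⟨X, b, D, hD, hl, hb, h1, h2⟩ := Sp.exists_boolean (|C| + 1)
  obtain ⟨n, hn, f, hf, hdeg, hsum⟩ := Sp.transport X b D hl hb h2
  refine ⟨n, hn, f, hf, ?_⟩
  rw [hsum]
  have a1 : Real.sqrt (deg f) ≤ Real.sqrt D := Real.sqrt_le_sqrt (by exact_mod_cast hdeg)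
  have a2 : 0 < Real.sqrt D := Real.sqrt_pos.2 (by exact_mod_cast hD)
  have a3 := le_abs_self C
  have a4 := abs_nonneg C
  have a5 := Real.sqrt_nonneg (deg f)
  nlinarith

end

end Vale.Agent.P047
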