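import Mathlib

namespace Vale.Agent.P047

/-- The sign `±1` encoded by a Boolean: points of `{-1,1}^n` are functions `Fin n → Bool`. -/
def sg (b : Bool) : ℝ := if b then -1 else 1

/-- The Fourier coefficient `E[f(X) ∏_{i ∈ S} X_i]`, `X` uniform on `{-1,1}^n`. -/
noncomputable def fourier {n : ℕ} (f : (Fin n → Bool) → ℝ) (S : Finset (Fin n)) : ℝ :=
  (∑ x : Fin n → Bool, f x * ∏ i ∈ S, sg (x i)) / 2 ^ n

open Classical in
/-- The degree: the largest `|S|` with nonzero Fourier coefficient. -/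
noncomputable def deg {n : ℕ} (f : (Fin n → Bool) → ℝ) : ℕ :=
  (Finset.univ.filter (fun S : Finset (Fin n) => fourier f S ≠ 0)).sup Finset.card

/-- `f` takes values in `{-1,1}`. -/
def IsBoolean {n : ℕ} (f : (Fin n → Bool) → ℝ) : Prop :=
  ∀ x, f x = 1 ∨ f x = -1

end Vale.Agent.P047
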