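import Vale.Agent.P047.Space

namespace Vale.Agent.P047

open Classical

noncomputable section

namespace Sp

variable {X Y : Sp}

/-- `h` is the conditional expectation of the coordinate sum given `h`, and all functions of `h`
have degree at most `D`. -/
structure Gad (X : Sp) (h : X.Ω → ℝ) (D : ℕ) : Prop where
  low : ∀ F : ℝ → ℝ, X.Low D (fun x => F (h x))
  ce : ∀ F : ℝ → ℝ, X.E (fun x => F (h x) * X.s x) = X.E (fun x => F (h x) * h x)

lemma Gad.mean {h : X.Ω → ℝ} {D : ℕ} (hg : Gad X h D) : X.E h = 0 := by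
  have := hg.ce (fun _ => 1)
  simp only [one_mul] at this
  exact this.symm.trans E_s

lemma low_prod' {Λ M : Type} {D D' : ℕ} (l : X.Ω → Λ) (m : Y.Ω → M)
    (h1 : ∀ G : Λ → ℝ, X.Low D (fun x => G (l x)))
    (h2 : ∀ G : M → ℝ, Y.Low D' (fun y => G (m y))) (G : Λ → M → ℝ) :
    (X.prod Y).Low (D + D') (fun z : X.Ω × Y.Ω => G (l z.1) (m z.2)) := by
  have := low_prod l m (fun _ => 1) (fun _ => 1) (fun G => (h1 G).congr (fun x => by simp))
    (fun G => (h2 G).congr (fun x => by simp)) G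
  exact this.congr (fun x => by simp)

lemma ce_prod {Λ M : Type} (l : X.Ω → Λ) (m : Y.Ω → M) (u : X.Ω → ℝ) (v : Y.Ω → ℝ)
    (h1 : ∀ G : Λ → ℝ, X.E (fun x => G (l x) * X.s x) = X.E (fun x => G (l x) * u x))
    (h2 : ∀ G : M → ℝ, Y.E (fun y => G (m y) * Y.s y) = Y.E (fun y => G (m y) * v y))
    (G : Λ → M → ℝ) :
    (X.prod Y).E (fun z : X.Ω × Y.Ω => G (l z.1) (m z.2) * (X.prod Y).s z) =
      (X.prod Y).E (fun z : X.Ω × Y.Ω => G (l z.1) (m z.2) * (u z.1 + v z.2)) := by
  have a1 : (X.prod Y).E (fun z : X.Ω × Y.Ω => G (l z.1) (m z.2) * X.s z.1) =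
      (X.prod Y).E (fun z : X.Ω × Y.Ω => G (l z.1) (m z.2) * u z.1) := by
    rw [E_prod', E_prod']
    exact E_congr fun y => h1 (fun a => G a (m y))
  have a2 : (X.prod Y).E (fun z : X.Ω × Y.Ω => G (l z.1) (m z.2) * Y.s z.2) =
      (X.prod Y).E (fun z : X.Ω × Y.Ω => G (l z.1) (m z.2) * v z.2) := by
    rw [E_prod, E_prod]
    exact E_congr fun x => h2 (fun b => G (l x) b)
  calc _ = (X.prod Y).E (fun z : X.Ω × Y.Ω => G (l z.1) (m z.2) * X.s z.1
            + G (l z.1) (m z.2) * Y.s z.2) := E_congr fun z => by rw [prod_s, mul_add]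
    _ = _ := by
        rw [E_add (X := X.prod Y), a1, a2, ← E_add (X := X.prod Y)]
        exact E_congr fun z => by rw [mul_add]

lemma Gad.prod {h : X.Ω → ℝ} {g : Y.Ω → ℝ} {D D' : ℕ} (h1 : Gad X h D) (h2 : Gad Y g D') :
    Gad (X.prod Y) (fun z : X.Ω × Y.Ω => h z.1 + g z.2) (D + D') :=
  ⟨fun F => low_prod' h g h1.low h2.low (fun a b => F (a + b)),
   fun F => ce_prod h g h g h1.ce h2.ce (fun a b => F (a + b))⟩

lemma E_pos_of {f : X.Ω → ℝ} (h : ∀ x, 0 ≤ f x) {x : X.Ω} (hx : 0 < f x) : 0 < X.E f :=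
  div_pos (Finset.sum_pos' (fun y _ => h y) ⟨x, Finset.mem_univ _, hx⟩) X.card_pos

lemma E_label (u f : X.Ω → ℝ) (G : ℝ → ℝ) :
    X.E (fun x => G (u x) * f x) =
      ∑ v ∈ Finset.univ.image u, G v * X.E (fun x => (if u x = v then 1 else 0) * f x) := by
  simp only [← E_cmul]
  rw [← E_sum]
  refine E_congr fun x => ?_
  rw [Finset.sum_eq_single (u x)]
  · simp
  · intro b _ hb; simp [Ne.symm hb]
  · intro hn; exact absurd (Finset.mem_image_of_mem u (Finset.mem_univ _)) hn

lemma condexp {u : X.Ω → ℝ} {D : ℕ} (hl : ∀ F : ℝ → ℝ, X.Low D (fun x => F (u x))) :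
    ∃ h, Gad X h D ∧ ∀ c : ℝ, 2 * c * X.E (fun x => u x * X.s x) - c ^ 2 * X.E (fun x => u x ^ 2)
      ≤ X.E (fun x => h x ^ 2) := by
  set φ : ℝ → ℝ := fun v => X.E (fun x => (if u x = v then 1 else 0) * X.s x) /
    X.E (fun x => (if u x = v then 1 else 0)) with hφ
  have key : ∀ G : ℝ → ℝ, X.E (fun x => G (u x) * X.s x) = X.E (fun x => G (u x) * φ (u x)) := by
    intro G
    rw [E_label u X.s G, E_label u (fun x => φ (u x)) G]
    refine Finset.sum_congr rfl fun v hv => ?_
    obtain ⟨x0, -, rfl⟩ := Finset.mem_image.1 hv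
    have hp : 0 < X.E (fun x => (if u x = u x0 then 1 else 0)) :=
      E_pos_of (fun x => by split_ifs <;> norm_num) (x := x0) (by simp)
    have : X.E (fun x => (if u x = u x0 then 1 else 0) * φ (u x)) =
        X.E (fun x => (if u x = u x0 then 1 else 0)) * φ (u x0) := by
      rw [← E_mulc]
      refine E_congr fun x => ?_
      split_ifs with h
      · rw [h]
      · simp
    rw [this, hφ]
    congr 1
    field_simp
  refine ⟨fun x => φ (u x), ⟨fun F => hl (fun v => F (φ v)), fun F => key (fun v => F (φ v))⟩, ?_⟩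
  intro c
  rw [key (fun v => v), ← E_cmul, ← E_cmul, ← E_sub]
  refine E_mono fun x => ?_
  nlinarith [sq_nonneg (φ (u x) - c * u x)]

variable {κ : Type} [Fintype κ]

lemma piLow {z : X.Ω → ℝ} {D : ℕ} (hl : ∀ F : ℝ → ℝ, X.Low D (fun x => F (z x))) (T : Finset κ)
    (G : (κ → ℝ) → ℝ) :
    (pi κ X).Low (T.card * D)
      (fun w : κ → X.Ω => G (fun i => if i ∈ T then z (w i) else 0)) := by
  have h := Low.sum (X := pi κ X)
    (Fintype.piFinset (fun i : κ => if i ∈ T then Finset.univ.image z else {0}))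
    (fun v _ => (Low.prod (X := pi κ X) T (fun i _ =>
      (hl (fun t => if t = v i then 1 else 0)).eval i)).cmul (G v))
  refine h.congr (fun w => ?_)
  rw [Finset.sum_eq_single (fun i => if i ∈ T then z (w i) else 0)]
  · rw [Finset.prod_eq_one, mul_one]
    intro i hi; simp [hi]
  · intro v hv hne
    obtain ⟨i, hi⟩ := Function.ne_iff.1 hne
    have hvi := Fintype.mem_piFinset.1 hv i
    by_cases hT : i ∈ T
    · rw [Finset.prod_eq_zero hT, mul_zero]
      simp only [hT, if_true] at hi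
      simp [Ne.symm hi]
    · simp only [hT, if_false, Finset.mem_singleton] at hi hvi
      exact absurd hvi hi
  · intro hn
    exfalso; apply hn
    refine Fintype.mem_piFinset.2 fun i => ?_
    by_cases hT : i ∈ T
    · simp only [hT, if_true]; exact Finset.mem_image_of_mem z (Finset.mem_univ _)
    · simp [hT]

lemma piLow_univ {z : X.Ω → ℝ} {D : ℕ} (hl : ∀ F : ℝ → ℝ, X.Low D (fun x => F (z x)))
    (G : (κ → ℝ) → ℝ) :
    (pi κ X).Low (Fintype.card κ * D) (fun w : κ → X.Ω => G (fun i => z (w i))) := by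
  have := piLow hl (Finset.univ : Finset κ) G
  simpa using this

lemma E_pi_single (f : κ → X.Ω → ℝ) (g : X.Ω → ℝ) (j : κ) :
    (pi κ X).E (fun w : κ → X.Ω => (∏ i, f i (w i)) * g (w j)) =
      X.E (fun x => f j x * g x) * ∏ i ∈ Finset.univ.erase j, X.E (f i) := by
  have h := E_pi_prod (X := X) (fun i x => f i x * if i = j then g x else 1)
  have e1 : ∀ w : κ → X.Ω, (∏ i, f i (w i)) * g (w j) =
      ∏ i, (f i (w i) * if i = j then g (w i) else 1) := by
    intro w
    rw [Finset.prod_mul_distrib, Finset.prod_ite_eq' Finset.univ j (fun i => g (w i))]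
    simp
  rw [E_congr (X := pi κ X) e1, h, ← Finset.mul_prod_erase Finset.univ _ (Finset.mem_univ j)]
  congr 1
  · simp
  · refine Finset.prod_congr rfl fun i hi => ?_
    simp [Finset.ne_of_mem_erase hi]

lemma E_eval (g : X.Ω → ℝ) (j : κ) : (pi κ X).E (fun w : κ → X.Ω => g (w j)) = X.E g := by
  have := E_pi_single (X := X) (fun _ _ => 1) g j
  simpa [E_const] using this

lemma piCE_single {z f g : X.Ω → ℝ}
    (h : ∀ F : ℝ → ℝ, X.E (fun x => F (z x) * f x) = X.E (fun x => F (z x) * g x))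
    (G : (κ → ℝ) → ℝ) (j : κ) :
    (pi κ X).E (fun w : κ → X.Ω => G (fun i => z (w i)) * f (w j)) =
      (pi κ X).E (fun w : κ → X.Ω => G (fun i => z (w i)) * g (w j)) := by
  have e1 : ∀ f : X.Ω → ℝ, (pi κ X).E (fun w : κ → X.Ω => G (fun i => z (w i)) * f (w j)) =
      ∑ v ∈ Fintype.piFinset (fun _ : κ => Finset.univ.image z), G v *
        (pi κ X).E (fun w : κ → X.Ω => (∏ i, if z (w i) = v i then (1 : ℝ) else 0) * f (w j)) := by
    intro f
    simp only [← E_cmul]
    rw [← E_sum]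
    refine E_congr (X := pi κ X) fun w => ?_
    rw [Finset.sum_eq_single (fun i => z (w i))]
    · simp
    · intro v _ hne
      obtain ⟨i, hi⟩ := Function.ne_iff.1 hne
      rw [Finset.prod_eq_zero (Finset.mem_univ i)]
      · simp
      · simp [Ne.symm hi]
    · intro hn
      exact absurd (Fintype.mem_piFinset.2 fun i =>
        Finset.mem_image_of_mem z (Finset.mem_univ _)) hn
  rw [e1 f, e1 g]
  refine Finset.sum_congr rfl fun v _ => ?_
  rw [E_pi_single (X := X) (fun i x => if z x = v i then (1 : ℝ) else 0) f j,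
    E_pi_single (X := X) (fun i x => if z x = v i then (1 : ℝ) else 0) g j,
    h (fun t => if t = v j then 1 else 0)]

lemma piCE {z f : X.Ω → ℝ}
    (h : ∀ F : ℝ → ℝ, X.E (fun x => F (z x) * X.s x) = X.E (fun x => F (z x) * f x))
    (G : (κ → ℝ) → ℝ) :
    (pi κ X).E (fun w : κ → X.Ω => G (fun i => z (w i)) * (pi κ X).s w) =
      (pi κ X).E (fun w : κ → X.Ω => G (fun i => z (w i)) * ∑ j, f (w j)) := by
  simp only [pi_s, Finset.mul_sum]
  rw [E_sum (X := pi κ X), E_sum (X := pi κ X)]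
  exact Finset.sum_congr rfl fun j _ => piCE_single h G j

lemma pi_moment (α β : κ → X.Ω → ℝ) (p r : κ → ℝ) (c : ℝ) (hp : ∀ i, X.E (α i) = p i)
    (h1 : ∀ i, X.E (fun x => α i x * β i x) = 0)
    (h2 : ∀ i, X.E (fun x => α i x * β i x ^ 2) = r i * p i) :
    (pi κ X).E (fun w : κ → X.Ω => (∏ i, α i (w i)) * (c + ∑ i, β i (w i)) ^ 2) =
      (∏ i, p i) * (c ^ 2 + ∑ i, r i) := by
  have a0 : (pi κ X).E (fun w : κ → X.Ω => ∏ i, α i (w i)) = ∏ i, p i := by
    rw [E_pi_prod]; simp only [hp]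
  have a1 : ∀ j, (pi κ X).E (fun w : κ → X.Ω => (∏ i, α i (w i)) * β j (w j)) = 0 := by
    intro j; rw [E_pi_single, h1, zero_mul]
  have a2 : ∀ j l, (pi κ X).E (fun w : κ → X.Ω => (∏ i, α i (w i)) * (β j (w j) * β l (w l))) =
      if l = j then (∏ i, p i) * r j else 0 := by
    intro j l
    split_ifs with hl
    · subst hl
      have := E_pi_single α (fun x => β l x ^ 2) l
      rw [h2] at this
      simp only [hp] at this
      rw [← Finset.mul_prod_erase Finset.univ p (Finset.mem_univ l)]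
      refine Eq.trans (E_congr (X := pi κ X) fun w => by rw [sq]) (this.trans (by ring))
    · have := E_pi_single (fun i x => α i x * if i = j then β j x else 1) (β l) l
      simp only [hl, if_false, mul_one, h1, zero_mul] at this
      refine Eq.trans (E_congr (X := pi κ X) fun w => ?_) this
      rw [Finset.prod_mul_distrib, Finset.prod_ite_eq' Finset.univ j (fun i => β j (w i))]
      simp [mul_assoc]
  have e : ∀ w : κ → X.Ω, (∏ i, α i (w i)) * (c + ∑ i, β i (w i)) ^ 2 =
      c ^ 2 * (∏ i, α i (w i)) + 2 * c * (∑ j, (∏ i, α i (w i)) * β j (w j)) +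
        ∑ j, ∑ l, (∏ i, α i (w i)) * (β j (w j) * β l (w l)) := by
    intro w
    simp only [← Finset.mul_sum, ← Finset.sum_mul]
    ring
  rw [E_congr (X := pi κ X) e, E_add, E_add, E_cmul, E_cmul, E_sum, E_sum, a0]
  simp only [E_sum, a1, a2]
  simp [Finset.mul_sum, mul_add, mul_comm]

end Sp

end

end Vale.Agent.P047
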