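import Vale.Agent.P047.Analysis

namespace Vale.Agent.P047

open Classical

noncomputable section

namespace Sp

variable {X : Sp} {z : X.Ω → ℝ}

def Good (z : X.Ω → ℝ) (δ u n ε p0 : ℝ) (B : ℝ → Prop) : Prop :=
  ∃ l a, Bin z u l a ∧ p0 ≤ Pr z l (l + u) ∧
    X.E (fun x => if B (z x) then (z x - a + δ) ^ 2 + n * u ^ 2 else 0) ≤ ε * Pr z l (l + u)

lemma improve_of_good {κ : Type} [Fintype κ] {h : X.Ω → ℝ} {D : ℕ} (hg : Gad X h D) {σ : ℝ}
    (hσ : 0 < σ) (h1 : X.E (fun x => (h x / σ) ^ 2) = 1) {δ u ε p0 : ℝ} (hp0 : 0 < p0)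
    (hε : Fintype.card κ * ε ≤ δ ^ 2 / 2) (spec : κ → ℝ → Prop) (cover : ∀ t, ∃ j, spec j t)
    (good : ∀ j, Good (fun x => h x / σ) δ u (Fintype.card κ) ε p0 (spec j)) :
    ∃ (Y : Sp) (g : Y.Ω → ℝ), Gad Y g (Fintype.card κ * D) ∧
      σ ^ 2 * (Fintype.card κ + p0 ^ Fintype.card κ * (δ ^ 2 / 2)) ≤ Y.E (fun y => g y ^ 2) := by
  choose col hcol using cover
  choose l a hb hp he using good
  have hpp : ∀ i, 0 < Pr (fun x => h x / σ) (l i) (l i + u) := fun i => hp0.trans_le (hp i)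
  obtain ⟨Y, g, hG, hI⟩ := swap hg hσ h1 col (fun i t => l i ≤ t ∧ t < l i + u) a
    (fun i => Pr (fun x => h x / σ) (l i) (l i + u)) δ (u ^ 2) (sq_nonneg _) hpp
    (fun i => E_congr fun x => by congr) (fun i => by convert (hb i).mean) (fun i => by
      convert (hb i).var)
  refine ⟨Y, g, hG, le_trans (mul_le_mul_of_nonneg_left (add_le_add le_rfl ?_) (sq_nonneg _)) hI⟩
  have e1 : X.E (fun x => ((h x / σ - a (col (h x / σ)) + δ) ^ 2 + Fintype.card κ * u ^ 2) /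
      Pr (fun x => h x / σ) (l (col (h x / σ))) (l (col (h x / σ)) + u)) ≤ δ ^ 2 / 2 := by
    have e2 := E_mono (X := X) fun x => Finset.single_le_sum (s := Finset.univ)
      (f := fun j => 1 / Pr (fun x => h x / σ) (l j) (l j + u) *
        if spec j (h x / σ) then (h x / σ - a j + δ) ^ 2 + Fintype.card κ * u ^ 2 else 0)
      (fun j _ => mul_nonneg (one_div_pos.2 (hpp j)).le (by split_ifs <;> positivity))
      (Finset.mem_univ (col (h x / σ)))
    simp only [hcol, if_true] at e2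
    rw [E_sum] at e2
    refine le_trans (le_of_eq (E_congr fun x => by ring)) (e2.trans (le_trans ?_ hε))
    refine le_trans (Finset.sum_le_card_nsmul _ _ ε fun j _ => ?_) (by simp)
    rw [E_cmul, one_div, ← div_eq_inv_mul, div_le_iff₀ (hpp j)]
    exact he j
  have e3 : p0 ^ Fintype.card κ ≤ ∏ i, Pr (fun x => h x / σ) (l i) (l i + u) := by
    rw [← Finset.card_univ, ← Finset.prod_const]
    exact Finset.prod_le_prod (fun _ _ => hp0.le) (fun i _ => hp i)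
  exact mul_le_mul e3 (by linarith) (by positivity) ((pow_pos hp0 _).le.trans e3)

lemma good_center {d n : ℝ} (hN : Nice X z d (d ^ 46 / 256)) (hd : 0 < d) (hd1 : d ≤ 1)
    (hn : n * d ^ 10 ≤ 3) {c : ℕ} (hc : (c + 1) * d ^ 14 = 4) (B : ℝ → Prop) (φ : ℝ → ℝ)
    (hφ : ∀ t, B t → (|t| + 3) ^ 2 + 3 ≤ φ t)
    (hE : X.E (fun x => if B (z x) then φ (z x) else 0) ≤ d ^ 26 / 32) :
    Good z d (d ^ 14) n (d ^ 12 / 6) (d ^ 33 / 6912) B := by
  obtain ⟨l, h1, h2, h3⟩ := center hN (by positivity) hc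
  obtain ⟨a, ha⟩ := bin_exists (z := z) (d ^ 14) l (lt_of_lt_of_le (by positivity) h3)
  refine ⟨l, a, ha, le_trans ?_ h3, ?_⟩
  · have : d ^ 33 ≤ d ^ 14 := pow_le_pow_of_le_one hd.le hd1 (by norm_num)
    have : 0 < d ^ 14 := by positivity
    linarith
  · have a1 : n * (d ^ 14) ^ 2 ≤ 3 := by
      have b1 : d ^ 18 ≤ 1 := pow_le_one₀ hd.le hd1
      have b2 : 0 < d ^ 18 := by positivity
      calc n * (d ^ 14) ^ 2 = n * d ^ 10 * d ^ 18 := by ring
        _ ≤ 3 * d ^ 18 := mul_le_mul_of_nonneg_right hn b2.le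
        _ ≤ 3 := by linarith
    have a2 : X.E (fun x => if B (z x) then (z x - a + d) ^ 2 + n * (d ^ 14) ^ 2 else 0) ≤
        X.E (fun x => if B (z x) then φ (z x) else 0) := by
      refine E_mono fun x => ?_
      split_ifs with h
      · refine le_trans (add_le_add ?_ a1) (hφ _ h)
        have b1 := ha.lo
        have b2 := ha.hi
        have b3 := le_abs_self (z x)
        have b4 := neg_abs_le (z x)
        exact sq_le_sq' (by linarith) (by linarith)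
      · exact le_rfl
    have a3 := mul_le_mul_of_nonneg_left h3 (by positivity : 0 ≤ d ^ 12 / 6)
    refine a2.trans (hE.trans (le_trans (le_of_eq (by ring)) a3))

lemma good_tail {d n T : ℝ} (hN : Nice X z d (d ^ 46 / 256)) (hT : 10 ^ 18 ≤ T) (hd : d * T = 1)
    (hn : n * d ^ 10 ≤ 3) {c : ℕ} (hc : (c + 1) * d ^ 14 = 4) :
    Good z d (d ^ 14) n (d ^ 12 / 6) (d ^ 33 / 6912) (fun t => T ≤ |t|) := by
  have hT0 : 0 < T := lt_of_lt_of_le (by norm_num) hT
  have hd0 : 0 < d := by by_contra h; push Not at h; nlinarith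
  have hd1 : d ≤ 1 / 10 ^ 18 := by rw [le_div_iff₀ (by norm_num)]; nlinarith
  refine good_center hN hd0 (by linarith) hn hc _ (fun t => 4 * t ^ 2) (fun t ht => ?_) ?_
  · rw [← sq_abs t]
    have : 4 ≤ |t| := by linarith
    nlinarith
  · have h1 := tail hN hT0
    have h2 : 1 / T = d := by field_simp; linarith
    rw [← one_div_pow, h2] at h1
    have h3 : X.E (fun x => if T ≤ |z x| then 4 * z x ^ 2 else 0) =
        4 * X.E (fun x => if T ≤ |z x| then z x ^ 2 else 0) := by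
      rw [← E_cmul]; refine E_congr fun x => ?_; split_ifs <;> simp
    have h4 : d ^ 2 ≤ (1 / 10 ^ 18) ^ 2 := pow_le_pow_left₀ hd0.le hd1 2
    have h5 : 0 < d ^ 26 := by positivity
    have h6 := mul_le_mul_of_nonneg_left h4 h5.le
    norm_num [Nat.factorial] at h1 h6
    refine le_trans (le_of_eq ?_) (h3.le.trans ?_)
    · exact E_congr fun x => by congr
    · nlinarith

lemma good_bulk {d n T b : ℝ} (hN : Nice X z d (d ^ 46 / 256)) (hT : 10 ^ 18 ≤ T) (hd : d * T = 1)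
    (hn : n * d ^ 10 ≤ 3) {c c' : ℕ} (hc : (c + 1) * d ^ 14 = 4) (hc' : (c' + 1) * d ^ 5 = 3)
    (hb1 : -T ≤ b) (hb2 : b + d ^ 9 ≤ T) :
    Good z d (d ^ 14) n (d ^ 12 / 6) (d ^ 33 / 6912) (fun t => b ≤ t ∧ t ≤ b + d ^ 9) := by
  have hT0 : 0 < T := lt_of_lt_of_le (by norm_num) hT
  have hd0 : 0 < d := by by_contra h; push Not at h; nlinarith
  have hd1 : d ≤ 1 / 10 ^ 18 := by rw [le_div_iff₀ (by norm_num)]; nlinarith
  have hw : 0 < d ^ 9 := by positivity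
  have hw1 : d ^ 9 ≤ 1 := pow_le_one₀ hd0.le (by linarith)
  set PB := X.E (fun x => if b ≤ z x ∧ z x ≤ b + d ^ 9 then 1 else 0) with hPB
  rcases le_total (d ^ 28 / 128) PB with hP | hP
  · obtain ⟨l, h1, h2, h3⟩ := heavy hN (b := b) (c := c') hw (by positivity : 0 < d ^ 14)
      (by rw [← hc']; ring) hd0.le (by nlinarith)
      (le_trans (le_of_eq (by field_simp; norm_num)) hP)
    rw [← hPB] at h3
    have h4 : PB * d ^ 5 ≤ 54 * Pr z l (l + d ^ 14) := by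
      calc _ ≤ 18 * (c' + 1) * Pr z l (l + d ^ 14) * d ^ 5 :=
            mul_le_mul_of_nonneg_right h3 (by positivity)
        _ = 18 * ((c' + 1) * d ^ 5) * Pr z l (l + d ^ 14) := by ring
        _ = _ := by rw [hc']; ring
    have h5 : d ^ 33 / 6912 ≤ Pr z l (l + d ^ 14) := by
      have := mul_le_mul_of_nonneg_right hP (by positivity : 0 ≤ d ^ 5)
      nlinarith
    obtain ⟨a, ha⟩ := bin_exists (z := z) (d ^ 14) l (lt_of_lt_of_le (by positivity) h5)
    refine ⟨l, a, ha, h5, ?_⟩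
    have a1 : n * (d ^ 14) ^ 2 ≤ 3 * d ^ 18 := by
      calc n * (d ^ 14) ^ 2 = n * d ^ 10 * d ^ 18 := by ring
        _ ≤ 3 * d ^ 18 := mul_le_mul_of_nonneg_right hn (by positivity)
    have a2 : X.E (fun x => if b ≤ z x ∧ z x ≤ b + d ^ 9 then
        (z x - a + d) ^ 2 + n * (d ^ 14) ^ 2 else 0) ≤ 7 * d ^ 18 * PB := by
      rw [hPB, ← E_cmul]
      refine E_mono fun x => ?_
      split_ifs with h
      · have b1 := ha.lo
        have b2 := ha.hi
        have : (z x - a + d) ^ 2 ≤ (2 * d ^ 9) ^ 2 :=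
          sq_le_sq' (by linarith [h.1]) (by linarith [h.2])
        nlinarith
      · simp
    refine le_trans (le_of_eq ?_) (a2.trans ?_)
    · exact E_congr fun x => by congr
    · have b1 := mul_le_mul_of_nonneg_left h4 (by positivity : 0 ≤ 7 * d ^ 13)
      have b2 : 0 ≤ d ^ 12 * Pr z l (l + d ^ 14) := mul_nonneg (by positivity) (Pr_nonneg _ _)
      have b3 := mul_le_mul_of_nonneg_left hd1 b2
      nlinarith
  · refine good_center hN hd0 (by linarith) hn hc _ (fun _ => 4 * T ^ 2)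
      (fun t ht => ?_) ?_
    · have h1 : |t| ≤ T := abs_le.2 ⟨by linarith [ht.1], by linarith [ht.2]⟩
      have h2 := abs_nonneg t
      nlinarith
    · have h3 : X.E (fun x => if b ≤ z x ∧ z x ≤ b + d ^ 9 then 4 * T ^ 2 else 0) =
          4 * T ^ 2 * PB := by
        rw [hPB, ← E_cmul]; refine E_congr fun x => ?_; split_ifs <;> simp
      refine le_trans (le_of_eq ?_) (h3.le.trans ?_)
      · exact E_congr fun x => by congr
      · calc 4 * T ^ 2 * PB ≤ 4 * T ^ 2 * (d ^ 28 / 128) :=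
            mul_le_mul_of_nonneg_left hP (by positivity)
          _ = (d * T) ^ 2 * d ^ 26 / 32 := by ring
          _ = _ := by rw [hd]; ring

lemma improve : ∃ (n : ℕ) (γ : ℝ), 0 < n ∧ 0 < γ ∧ ∀ (X : Sp) (h : X.Ω → ℝ) (D : ℕ), Gad X h D →
    0 < X.E (fun x => h x ^ 2) → ∃ (Y : Sp) (g : Y.Ω → ℝ) (k : ℕ), 0 < k ∧ Gad Y g (n * (k * D)) ∧
      k * X.E (fun x => h x ^ 2) * (n + γ) ≤ Y.E (fun y => g y ^ 2) := by
  obtain ⟨t, ht⟩ : ∃ t : ℕ, (10 : ℝ) ^ 18 ≤ t := exists_nat_ge _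
  have ht0 : (0 : ℝ) < t := lt_of_lt_of_le (by norm_num) ht
  have ht1 : (1 : ℝ) ≤ t := le_trans (by norm_num) ht
  have ht' : 0 < t := by exact_mod_cast ht0
  obtain ⟨d, hd⟩ : ∃ d : ℝ, d * t = 1 := ⟨1 / t, by field_simp⟩
  have hd0 : 0 < d := by by_contra h; push Not at h; nlinarith
  have hd1 : d ≤ 1 := by nlinarith
  obtain ⟨N, hN⟩ : ∃ N : ℕ, (N : ℝ) = 2 * t ^ 10 := ⟨2 * t ^ 10, by push_cast; ring⟩
  obtain ⟨c, hc⟩ : ∃ c : ℕ, (c + 1 : ℝ) = 4 * t ^ 14 := by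
    obtain ⟨c, hc⟩ := Nat.exists_eq_succ_of_ne_zero (n := 4 * t ^ 14) (by positivity)
    exact ⟨c, by exact_mod_cast hc.symm⟩
  obtain ⟨c', hc'⟩ : ∃ c : ℕ, (c + 1 : ℝ) = 3 * t ^ 5 := by
    obtain ⟨c, hc⟩ := Nat.exists_eq_succ_of_ne_zero (n := 3 * t ^ 5) (by positivity)
    exact ⟨c, by exact_mod_cast hc.symm⟩
  have hdt : ∀ m : ℕ, (t : ℝ) ^ m * d ^ m = 1 := fun m => by rw [← mul_pow, mul_comm, hd, one_pow]
  have hcc : (c + 1) * d ^ 14 = 4 := by rw [hc, mul_assoc, hdt, mul_one]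
  have hcc' : (c' + 1) * d ^ 5 = 3 := by rw [hc', mul_assoc, hdt, mul_one]
  have hNd : N * d ^ 9 = 2 * t := by
    rw [hN]
    calc 2 * (t : ℝ) ^ 10 * d ^ 9 = 2 * t * (t ^ 9 * d ^ 9) := by ring
      _ = _ := by rw [hdt, mul_one]
  have hcard : ((Fintype.card (Option (Fin N)) : ℕ) : ℝ) * d ^ 10 ≤ 3 := by
    rw [Fintype.card_option, Fintype.card_fin]
    push_cast
    have : d ^ 10 ≤ 1 := pow_le_one₀ hd0.le hd1
    rw [hN, add_mul, mul_assoc, hdt]; linarith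
  have hw : 0 < d ^ 9 := by positivity
  refine ⟨Fintype.card (Option (Fin N)), (d ^ 33 / 6912) ^ Fintype.card (Option (Fin N)) *
    (d ^ 2 / 2), Fintype.card_pos, by positivity, fun X h D hg hI => ?_⟩
  obtain ⟨Y, g, k, σ, hk, hY, hσ, hσ2, hZ⟩ := normalise hg rfl hI hd0.le
    (by positivity : 0 < d ^ 46 / 256)
  obtain ⟨W, f, hW, hf⟩ := improve_of_good (κ := Option (Fin N)) hY hσ hZ.var (δ := d)
    (u := d ^ 14) (ε := d ^ 12 / 6) (by positivity : 0 < d ^ 33 / 6912)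
    (by nlinarith [sq_nonneg d])
    (fun j s => match j with
      | none => (t : ℝ) ≤ |s|
      | some j => -(t : ℝ) + j * d ^ 9 ≤ s ∧ s ≤ -(t : ℝ) + j * d ^ 9 + d ^ 9)
    (fun s => by
      rcases le_or_gt (t : ℝ) |s| with hs | hs
      · exact ⟨none, hs⟩
      · have h1 := abs_lt.1 hs
        have h2 : 0 ≤ (s + t) / d ^ 9 := div_nonneg (by linarith [h1.1]) hw.le
        have h3 := Nat.floor_le h2
        have h4 := Nat.lt_floor_add_one ((s + t) / d ^ 9)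
        rw [le_div_iff₀ hw] at h3
        rw [div_lt_iff₀ hw] at h4
        refine ⟨some ⟨⌊(s + t) / d ^ 9⌋₊, ?_⟩, ?_, ?_⟩
        · rw [Nat.floor_lt h2, div_lt_iff₀ hw]; linarith [h1.2]
        · show -(t : ℝ) + (⌊(s + t) / d ^ 9⌋₊ : ℕ) * d ^ 9 ≤ s
          linarith
        · show s ≤ -(t : ℝ) + (⌊(s + t) / d ^ 9⌋₊ : ℕ) * d ^ 9 + d ^ 9
          linarith)
    (fun j => by
      cases j with
      | none => exact good_tail hZ ht hd hcard hcc
      | some j =>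
        refine good_bulk hZ ht hd hcard hcc hcc' ?_ ?_
        · have : (0 : ℝ) ≤ (j : ℕ) * d ^ 9 := by positivity
          linarith
        · have h1 : ((j : ℕ) : ℝ) + 1 ≤ N := by exact_mod_cast j.2
          nlinarith)
  exact ⟨W, f, k, hk, hW, by rw [← hσ2]; exact hf⟩

lemma unbounded (ρ : ℝ) : ∃ (X : Sp) (h : X.Ω → ℝ) (D : ℕ), 0 < D ∧ Gad X h D ∧
    ρ * D ≤ X.E (fun x => h x ^ 2) ∧ 0 < X.E (fun x => h x ^ 2) := by
  obtain ⟨n, γ, hn, hγ, H⟩ := improve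
  have hn' : (0 : ℝ) < n := by exact_mod_cast hn
  have key : ∀ m : ℕ, ∃ (X : Sp) (h : X.Ω → ℝ) (D : ℕ), 0 < D ∧ Gad X h D ∧
      (1 + γ / n) ^ m * D ≤ X.E (fun x => h x ^ 2) := by
    intro m
    induction m with
    | zero =>
      refine ⟨bit, bit.s, 1, one_pos, ⟨fun F => bit_low _, fun F => rfl⟩, ?_⟩
      simp [bit_E, bit_s, sg_sq]
    | succ m ih =>
      obtain ⟨X, h, D, hD, hg, hI⟩ := ih
      have hD' : (0 : ℝ) < D := by exact_mod_cast hD
      obtain ⟨Y, g, k, hk, hY, hJ⟩ := H X h D hg (lt_of_lt_of_le (by positivity) hI)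
      refine ⟨Y, g, _, by positivity, hY, le_trans ?_ hJ⟩
      have hk' : (0 : ℝ) < k := by exact_mod_cast hk
      calc (1 + γ / n) ^ (m + 1) * ((n * (k * D) : ℕ) : ℝ)
          = k * ((1 + γ / n) ^ m * D) * (n + γ) := by rw [pow_succ]; push_cast; field_simp
        _ ≤ _ := by gcongr
  obtain ⟨m, hm⟩ := pow_unbounded_of_one_lt ρ (show 1 < 1 + γ / n by
    have : 0 < γ / n := by positivity
    linarith)
  obtain ⟨X, h, D, hD, hg, hI⟩ := key m
  have hD' : (0 : ℝ) < D := by exact_mod_cast hD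
  exact ⟨X, h, D, hD, hg, le_trans (by gcongr) hI, lt_of_lt_of_le (by positivity) hI⟩

/-- A Boolean function of low degree with large correlation with the coordinate sum. -/
lemma exists_boolean (C : ℝ) : ∃ (X : Sp) (b : X.Ω → ℝ) (D : ℕ), 0 < D ∧ X.Low D b ∧
    (∀ x, b x = 1 ∨ b x = -1) ∧ C * Real.sqrt D ≤ X.E (fun x => b x * X.s x) ∧
    0 < X.E (fun x => b x * X.s x) := by
  obtain ⟨X, h, D, hD, hg, hρ, hI⟩ := unbounded ((32 * C) ^ 2)
  obtain ⟨Y, g, k, σ, hk, hY, hσ, hσ2, hZ⟩ := normalise hg rfl hI zero_le_one one_pos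
  have h1 := abs_mean hZ
  have h2 : Y.E (fun y => (if 0 ≤ g y then 1 else -1) * Y.s y) = σ * Y.E (fun y => |g y / σ|) := by
    rw [hY.ce (fun t => if 0 ≤ t then 1 else -1), ← E_cmul]
    refine E_congr fun y => ?_
    rw [abs_div, abs_of_pos hσ, mul_div_cancel₀ _ hσ.ne']
    split_ifs with a
    · rw [abs_of_nonneg a, one_mul]
    · rw [abs_of_neg (not_le.1 a)]; ring
  have h3 : σ / 32 ≤ Y.E (fun y => (if 0 ≤ g y then 1 else -1) * Y.s y) := by
    rw [h2]; nlinarith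
  refine ⟨Y, fun y => if 0 ≤ g y then 1 else -1, k * D, by positivity,
    hY.low (fun t => if 0 ≤ t then 1 else -1), fun y => by beta_reduce; split_ifs <;> simp, le_trans ?_ h3,
    lt_of_lt_of_le (by positivity) h3⟩
  rw [le_div_iff₀ (by norm_num)]
  refine le_trans (le_abs_self _) (abs_le_of_sq_le_sq' ?_ hσ.le).2
  rw [sq_abs, mul_pow, mul_pow, Real.sq_sqrt (Nat.cast_nonneg _), hσ2]
  have := mul_le_mul_of_nonneg_left hρ (Nat.cast_nonneg k : (0 : ℝ) ≤ k)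
  push_cast
  nlinarith

end Sp

end

end Vale.Agent.P047
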