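import Vale.Agent.P047.Gadget

namespace Vale.Agent.P047

open Classical

noncomputable section

namespace Sp

variable {X Y : Sp}

@[reducible] def pt : Sp where
  Ω := Unit
  ι := Empty
  e := Equiv.ofUnique _ _

lemma pt_E (f : Unit → ℝ) : pt.E f = f () := by
  simp [E]

lemma pt_gad : Gad pt (fun _ => 0) 0 :=
  ⟨fun F => Low.const _ _, fun F => by simp [pt_E, s]⟩

lemma tilt_step {h : X.Ω → ℝ} {I M τ : ℝ} (h0 : X.E h = 0) (hI : X.E (fun x => h x ^ 2) = I)
    (hM : ∀ x, |h x| ≤ M) (hτ : 0 ≤ τ) (hτM : τ * M ≤ 1) (A B : ℝ → ℝ) (hB : ∀ b, 0 ≤ B b)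
    (K W lam : ℝ) (hlam : 0 ≤ lam) (hAB : ∀ a b, A a ≤ B b + lam * ((K + b - a) ^ 2 + W)) :
    X.E (fun x => A (h x)) ≤ X.E (fun x => Real.exp (τ * h x) * B (h x)) +
      lam * ((K + τ * I) ^ 2 + W + 8 * τ * M ^ 3) := by
  have hM0 : 0 ≤ M := (abs_nonneg _).trans (hM (Classical.arbitrary _))
  have key : ∀ x, τ * M * A (h x) ≤ X.E (fun x' => (τ * M + τ * h x') * B (h x')) +
      lam * (τ * M * (K ^ 2 + W - 2 * K * h x) + 2 * K * τ * I + 8 * τ * M ^ 3) := by
    intro x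
    have e1 : τ * M * A (h x) = X.E (fun x' => τ * M * A (h x) + τ * A (h x) * h x') := by
      rw [E_add, E_const, E_cmul, h0]; ring
    have e2 : X.E (fun x' => (τ * M + τ * h x') * B (h x')) +
        lam * (τ * M * (K ^ 2 + W - 2 * K * h x) + 2 * K * τ * I + 8 * τ * M ^ 3) =
        X.E (fun x' => (τ * M + τ * h x') * B (h x') +
          ((lam * (τ * M * (K ^ 2 + W - 2 * K * h x) + 8 * τ * M ^ 3) +
          (lam * (τ * (K ^ 2 + W - 2 * K * h x) + 2 * K * τ * M)) * h x') +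
          lam * (2 * K * τ) * h x' ^ 2)) := by
      rw [E_add, E_add, E_add, E_const, E_cmul, E_cmul, h0, hI]; ring
    rw [e1, e2]
    refine E_mono fun x' => ?_
    have a1 := abs_le.1 (hM x)
    have a2 := abs_le.1 (hM x')
    have p1 : 0 ≤ τ * M + τ * h x' := by nlinarith
    have p2 : τ * M + τ * h x' ≤ 2 * τ * M := by nlinarith
    have p3 : (h x' - h x) ^ 2 ≤ 4 * M ^ 2 := by nlinarith
    have p4 : (τ * M + τ * h x') * (h x' - h x) ^ 2 ≤ 8 * τ * M ^ 3 := by
      calc _ ≤ (2 * τ * M) * (4 * M ^ 2) :=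
            mul_le_mul p2 p3 (sq_nonneg _) (by positivity)
        _ = _ := by ring
    have p5 := mul_le_mul_of_nonneg_left (hAB (h x) (h x')) p1
    have p6 := mul_le_mul_of_nonneg_left p4 hlam
    nlinarith
  have key2 : ∀ x, A (h x) ≤ ((1 - τ * M) * B (h x) + (-2 * lam * τ * M * K) * h x) +
      (X.E (fun x' => (τ * M + τ * h x') * B (h x')) +
      lam * (K ^ 2 + W + 2 * K * τ * I + 8 * τ * M ^ 3)) := by
    intro x
    have p1 := mul_le_mul_of_nonneg_left (hAB (h x) (h x)) (sub_nonneg.2 hτM)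
    have p2 := key x
    nlinarith
  have key3 := E_mono key2
  rw [E_add, E_add, E_const, E_cmul (-2 * lam * τ * M * K), h0] at key3
  have key4 : X.E (fun x => (1 - τ * M) * B (h x)) + X.E (fun x' => (τ * M + τ * h x') * B (h x'))
      ≤ X.E (fun x => Real.exp (τ * h x) * B (h x)) := by
    rw [← E_add]
    refine E_mono fun x => ?_
    have := mul_le_mul_of_nonneg_right (Real.add_one_le_exp (τ * h x)) (hB (h x))
    nlinarith
  have : 0 ≤ lam * (τ * I) ^ 2 := by positivity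
  nlinarith

lemma pow_exists {h : X.Ω → ℝ} {D : ℕ} (hg : Gad X h D) {I M τ : ℝ}
    (hI : X.E (fun x => h x ^ 2) = I) (hM : ∀ x, |h x| ≤ M) (hτ : 0 ≤ τ) (hτM : τ * M ≤ 1)
    (k : ℕ) : ∃ (Y : Sp) (g : Y.Ω → ℝ), Gad Y g (k * D) ∧ Y.E (fun y => g y ^ 2) = k * I ∧
      (∀ l : ℝ, Y.E (fun y => Real.exp (l * g y)) = X.E (fun x => Real.exp (l * h x)) ^ k) ∧
      ∀ (f g0 : ℝ → ℝ) (c lam : ℝ), 0 ≤ lam → (∀ t, 0 ≤ g0 t) →
        (∀ t t', f t ≤ g0 t' + lam * (t' - t - c) ^ 2) →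
        Y.E (fun y => f (g y)) ≤ Y.E (fun y => g0 (g y) * Real.exp (τ * g y)) +
          lam * ((k * τ * I - c) ^ 2 + k * (8 * τ * M ^ 3)) := by
  induction k with
  | zero =>
    refine ⟨pt, fun _ => 0, by simpa using pt_gad, by simp [pt_E], by simp [pt_E], ?_⟩
    intro f g0 c lam _ _ hf
    simpa [pt_E] using hf 0 0
  | succ k ih =>
    obtain ⟨Y, g, hY, h2, h3, h4⟩ := ih
    refine ⟨X.prod Y, fun z => h z.1 + g z.2, ?_, ?_, ?_, ?_⟩
    · have := hg.prod hY
      rwa [show D + k * D = (k + 1) * D by ring] at this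
    · have e : ∀ z : X.Ω × Y.Ω, (h z.1 + g z.2) ^ 2 =
          h z.1 ^ 2 + g z.2 ^ 2 + 2 * (h z.1 * g z.2) := fun z => by ring
      rw [E_congr (X := X.prod Y) e, E_add, E_add, E_cmul, E_fst (fun x => h x ^ 2),
        E_snd (fun x => g x ^ 2), E_prod_mul, hg.mean, hI, h2]
      push_cast; ring
    · intro l
      have e : ∀ z : X.Ω × Y.Ω, Real.exp (l * (h z.1 + g z.2)) =
          Real.exp (l * h z.1) * Real.exp (l * g z.2) := fun z => by
        rw [mul_add, Real.exp_add]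
      rw [E_congr (X := X.prod Y) e, E_prod_mul (fun x => Real.exp (l * h x))
        (fun x => Real.exp (l * g x)), h3]
      ring
    · intro f g0 c lam hlam hg0 hf
      have := tilt_step hg.mean hI hM hτ hτM (fun a => Y.E (fun y => f (a + g y)))
        (fun b => Y.E (fun y => g0 (b + g y) * Real.exp (τ * g y)))
        (fun b => E_nonneg fun y => mul_nonneg (hg0 _) (Real.exp_pos _).le)
        (k * τ * I - c) (k * (8 * τ * M ^ 3)) lam hlam (fun a b => by
          have := h4 (fun t => f (a + t)) (fun t => g0 (b + t)) (c - (b - a)) lam hlam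
            (fun t => hg0 _) (fun t t' => by
              have := hf (a + t) (b + t')
              rwa [show b + t' - (a + t) - c = t' - t - (c - (b - a)) by ring] at this)
          rwa [show k * τ * I - (c - (b - a)) = k * τ * I - c + b - a by ring] at this)
      rw [E_prod, E_prod]
      refine this.trans (le_of_eq ?_)
      congr 1
      · refine E_congr fun x => ?_
        rw [← E_cmul]
        refine E_congr fun y => ?_
        rw [mul_add, Real.exp_add]; ring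
      · push_cast; ring

structure Nice (X : Sp) (z : X.Ω → ℝ) (δ η : ℝ) : Prop where
  mean : X.E z = 0
  var : X.E (fun x => z x ^ 2) = 1
  ep : X.E (fun x => Real.exp (z x)) ≤ 3
  em : X.E (fun x => Real.exp (- z x)) ≤ 3
  shift : ∀ (f g : ℝ → ℝ) (lam : ℝ), 0 ≤ lam → (∀ t, 0 ≤ g t) →
    (∀ t t', f t ≤ g t' + lam * (t' - t - δ) ^ 2) →
    X.E (fun x => f (z x)) ≤ X.E (fun x => g (z x) * Real.exp (δ * z x)) + lam * η

lemma exp_moment {h : X.Ω → ℝ} {I M l : ℝ} (h0 : X.E h = 0) (hI : X.E (fun x => h x ^ 2) = I)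
    (hM : ∀ x, |h x| ≤ M) (hl : |l| * M ≤ 1) {k : ℕ} (hk : l ^ 2 * (k * I) = 1) :
    X.E (fun x => Real.exp (l * h x)) ^ k ≤ 3 := by
  have h1 : X.E (fun x => Real.exp (l * h x)) ≤ 1 + l ^ 2 * I := by
    have : X.E (fun x => 1 + l * h x + l ^ 2 * h x ^ 2) = 1 + l ^ 2 * I := by
      rw [E_add, E_add, E_const, E_cmul, E_cmul, h0, hI]; ring
    rw [← this]
    refine E_mono fun x => ?_
    have a : |l * h x| ≤ 1 := by
      rw [abs_mul]; exact (mul_le_mul_of_nonneg_left (hM x) (abs_nonneg _)).trans hl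
    have := (abs_le.1 (Real.abs_exp_sub_one_sub_id_le a)).2
    nlinarith
  have h2 : X.E (fun x => Real.exp (l * h x)) ≤ Real.exp (l ^ 2 * I) := by
    have := Real.add_one_le_exp (l ^ 2 * I); linarith
  calc _ ≤ Real.exp (l ^ 2 * I) ^ k :=
        pow_le_pow_left₀ (E_nonneg fun x => (Real.exp_pos _).le) h2 k
    _ = Real.exp 1 := by rw [← Real.exp_nat_mul, ← hk]; ring_nf
    _ ≤ 3 := by have := Real.exp_one_lt_d9; linarith

lemma normalise {h : X.Ω → ℝ} {D : ℕ} (hg : Gad X h D) {I : ℝ}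
    (hI : X.E (fun x => h x ^ 2) = I) (hpos : 0 < I) {δ η : ℝ} (hδ : 0 ≤ δ) (hη : 0 < η) :
    ∃ (Y : Sp) (g : Y.Ω → ℝ) (k : ℕ) (σ : ℝ), 0 < k ∧ Gad Y g (k * D) ∧ 0 < σ ∧ σ ^ 2 = k * I ∧
      Nice Y (fun y => g y / σ) δ η := by
  obtain ⟨M, hM⟩ : ∃ M, ∀ x, |h x| ≤ M :=
    ⟨∑ x, |h x|, fun x => Finset.single_le_sum (f := fun x => |h x|) (fun _ _ => abs_nonneg _)
      (Finset.mem_univ x)⟩
  have hM0 : 0 ≤ M := (abs_nonneg _).trans (hM (Classical.arbitrary _))
  set S := M + δ * M + 8 * δ * M ^ 3 / (I * η) with hS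
  have hS0 : 0 ≤ S := by positivity
  obtain ⟨k, hk⟩ := exists_nat_gt (S ^ 2 / I)
  have hk0 : (0 : ℝ) < k := lt_of_le_of_lt (by positivity) hk
  set σ := Real.sqrt (k * I) with hσ
  have hσ2 : σ ^ 2 = k * I := Real.sq_sqrt (by positivity)
  have hσ0 : 0 < σ := Real.sqrt_pos.2 (by positivity)
  have hSσ : S ≤ σ := by
    apply Real.le_sqrt_of_sq_le
    rw [div_lt_iff₀ hpos] at hk; exact hk.le
  have q1 : 0 ≤ δ * M := by positivity
  have q2 : 0 ≤ 8 * δ * M ^ 3 / (I * η) := by positivity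
  have b1 : M ≤ σ := by linarith
  have b2 : δ * M ≤ σ := by linarith
  have b3 : 8 * δ * M ^ 3 / (I * η) ≤ σ := by linarith
  obtain ⟨Y, g, hY, h2, h3, h4⟩ := pow_exists hg hI hM (τ := δ / σ) (by positivity)
    (by rw [div_mul_eq_mul_div, div_le_one hσ0]; exact b2) k
  have c1 : |1 / σ| * M ≤ 1 := by
    rw [abs_of_pos (by positivity), div_mul_eq_mul_div, div_le_one hσ0]; linarith
  have c2 : (1 / σ) ^ 2 * (k * I) = 1 := by rw [← hσ2]; field_simp
  refine ⟨Y, g, k, σ, by exact_mod_cast hk0, hY, hσ0, hσ2, ?_, ?_, ?_, ?_, ?_⟩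
  · simp only [div_eq_mul_inv]; rw [E_mulc, hY.mean, zero_mul]
  · simp only [div_pow]
    simp only [div_eq_mul_inv]; rw [E_mulc, h2, ← hσ2]; field_simp
  · have := exp_moment hg.mean hI hM c1 c2
    rw [← h3] at this
    refine le_of_eq_of_le (E_congr fun y => ?_) this
    congr 1; ring
  · have := exp_moment hg.mean hI hM (l := -(1 / σ)) (by rwa [abs_neg]) (k := k)
      (by rwa [neg_sq])
    rw [← h3] at this
    refine le_of_eq_of_le (E_congr fun y => ?_) this
    congr 1; ring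
  · intro f g0 lam hlam hg0 hf
    have := h4 (fun t => f (t / σ)) (fun t => g0 (t / σ)) (δ * σ) (lam / σ ^ 2) (by positivity)
      (fun t => hg0 _) (fun t t' => by
        have := hf (t / σ) (t' / σ)
        refine this.trans (le_of_eq ?_)
        congr 1; field_simp)
    refine this.trans (add_le_add (le_of_eq (E_congr fun y => ?_)) ?_)
    · congr 2; ring
    · have e1 : (k : ℝ) * (δ / σ) * I - δ * σ = 0 := by
        have : (k : ℝ) * (δ / σ) * I = δ * σ ^ 2 / σ := by rw [hσ2]; ring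
        rw [this]; field_simp; ring
      rw [e1]
      have e2 : lam / σ ^ 2 * (0 ^ 2 + k * (8 * (δ / σ) * M ^ 3)) =
          lam * (8 * δ * M ^ 3 / (I * η) / σ * η) := by
        rw [hσ2]; field_simp; ring
      rw [e2]
      refine mul_le_mul_of_nonneg_left ?_ hlam
      have : 8 * δ * M ^ 3 / (I * η) / σ ≤ 1 := by rwa [div_le_one hσ0]
      nlinarith

end Sp

end

end Vale.Agent.P047
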