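import Vale.Agent.P047.Bridge

namespace Vale.Agent.P047

open Classical

noncomputable section

namespace Sp

variable {X Y : Sp}

structure Bal (X : Sp) (y : X.Ω → ℝ) (D : ℕ) (L : ℝ) : Prop where
  low : X.Low D y
  bool : ∀ x, y x = 1 ∨ y x = -1
  mean : X.E y = 0
  corr : X.E (fun x => y x * X.s x) = L

lemma bal_bit : Bal bit sg 1 1 :=
  ⟨bit_low _, fun b => by cases b <;> simp [sg], by simp [bit_E, sg], by
    simp [bit_E, bit_s, sg]⟩

lemma Bal.affine {y : X.Ω → ℝ} {D : ℕ} {L : ℝ} (h : Bal X y D L) (F : ℝ → ℝ) (x : X.Ω) :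
    F (y x) = (F 1 + F (-1)) / 2 + (F 1 - F (-1)) / 2 * y x := by
  rcases h.bool x with a | a <;> rw [a] <;> ring

lemma Bal.lowF {y : X.Ω → ℝ} {D : ℕ} {L : ℝ} (h : Bal X y D L) (F : ℝ → ℝ) :
    X.Low D (fun x => F (y x)) :=
  ((Low.const D _).add (h.low.cmul _)).congr (h.affine F)

lemma Bal.meanF {y : X.Ω → ℝ} {D : ℕ} {L : ℝ} (h : Bal X y D L) (F : ℝ → ℝ) :
    X.E (fun x => F (y x)) = (F 1 + F (-1)) / 2 := by
  rw [E_congr (h.affine F), E_add, E_const, E_cmul, h.mean]; ring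

lemma Bal.ce {y : X.Ω → ℝ} {D : ℕ} {L : ℝ} (h : Bal X y D L) (F : ℝ → ℝ) :
    X.E (fun x => F (y x) * X.s x) = X.E (fun x => F (y x) * (L * y x)) := by
  rw [h.meanF (fun t => F t * (L * t))]
  have e : ∀ x, F (y x) * X.s x = (F 1 + F (-1)) / 2 * X.s x +
      (F 1 - F (-1)) / 2 * (y x * X.s x) := fun x => by rw [h.affine F x]; ring
  rw [E_congr e, E_add, E_cmul, E_cmul, h.corr, E_s]; ring

def code (X : Sp) (v : X.ι → ℝ) : X.Ω := X.e.symm (fun i => decide (v i = -1))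

lemma E_code {g : Y.Ω → ℝ} {D : ℕ} {L : ℝ} (h : Bal Y g D L) (Φ : X.Ω → ℝ) :
    (pi X.ι Y).E (fun w : X.ι → Y.Ω => Φ (X.code fun i => g (w i))) = X.E Φ := by
  have e : ∀ w : X.ι → Y.Ω, Φ (X.code fun i => g (w i)) =
      ∑ x, Φ x * ∏ i, (if decide (g (w i) = -1) = X.e x i then (1 : ℝ) else 0) := by
    intro w
    rw [Finset.sum_eq_single (X.code fun i => g (w i))]
    · simp [code]
    · intro x _ hx
      have : (fun i => decide (g (w i) = -1)) ≠ X.e x := fun h => hx (by simp [code, h])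
      obtain ⟨i, hi⟩ := Function.ne_iff.1 this
      rw [Finset.prod_eq_zero (Finset.mem_univ i) (if_neg hi), mul_zero]
    · simp
  have e2 : ∀ b : Bool, Y.E (fun y => if decide (g y = -1) = b then (1 : ℝ) else 0) = 1 / 2 := by
    intro b
    rw [h.meanF (fun t => if decide (t = -1) = b then (1 : ℝ) else 0)]
    cases b <;> norm_num
  rw [E_congr (X := pi X.ι Y) e, E_sum]
  simp only [E_cmul]
  have e3 : ∀ x : X.Ω, (pi X.ι Y).E (fun w : X.ι → Y.Ω =>
      ∏ i, (if decide (g (w i) = -1) = X.e x i then (1 : ℝ) else 0)) =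
      1 / Fintype.card X.Ω := by
    intro x
    rw [E_pi_prod (X := Y) (fun i y => if decide (g y = -1) = X.e x i then (1 : ℝ) else 0)]
    simp only [e2]
    rw [Fintype.card_congr X.e]
    simp
  simp only [e3, ← Finset.sum_mul]
  rw [E]; ring

lemma Bal.comp {f : X.Ω → ℝ} {g : Y.Ω → ℝ} {D D' : ℕ} {L L' : ℝ} (hf : Bal X f D L)
    (hg : Bal Y g D' L') :
    Bal (pi X.ι Y) (fun w : X.ι → Y.Ω => f (X.code fun i => g (w i))) (D * D') (L * L') := by
  refine ⟨?_, fun w => hf.bool _, by rw [E_code hg, hf.mean], ?_⟩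
  · have hl := hf.low
    clear hf
    induction hl using Submodule.span_induction with
    | mem f hf =>
      obtain ⟨T, hT, h1⟩ := hf
      refine ((piLow hg.lowF T (fun v => f (X.code v))).mono
        (Nat.mul_le_mul_right _ hT)).congr fun w => ?_
      exact h1 _ _ fun i hi => by simp [code, hi]
    | zero => exact (Low.const _ 0).congr (fun x => by simp)
    | add f f' _ _ h1 h2 => exact (h1.add h2).congr (fun x => by simp)
    | smul c f _ h1 => exact (h1.cmul c).congr (fun x => by simp)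
  · rw [piCE hg.ce (fun v => f (X.code v)), ← hf.corr, ← E_code hg (fun x => f x * X.s x),
      ← E_mulc]
    refine E_congr fun w => ?_
    rw [← Finset.mul_sum, mul_assoc, mul_comm L']
    congr 2
    refine Finset.sum_congr rfl fun i _ => ?_
    rcases hg.bool (w i) with a | a
    · simp only [code, Equiv.apply_symm_apply, a, sg]; norm_num
    · simp [code, a, sg]

lemma Bal.pow {f : X.Ω → ℝ} {D : ℕ} {L : ℝ} (hf : Bal X f D L) (k : ℕ) :
    ∃ (Y : Sp) (g : Y.Ω → ℝ), Bal Y g (D ^ k) (L ^ k) := by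
  induction k with
  | zero => exact ⟨bit, sg, by simpa using bal_bit⟩
  | succ k ih =>
    obtain ⟨Y, g, hg⟩ := ih
    exact ⟨_, _, by rw [pow_succ, pow_succ]; exact hg.comp hf⟩

lemma exists_bal : ∃ (X : Sp) (y : X.Ω → ℝ) (D : ℕ) (L : ℝ), Bal X y D L ∧ 2 ≤ D ∧
    Real.sqrt D < L := by
  obtain ⟨X, b, D, hD, hl, hb, h1, -⟩ := exists_boolean 4
  have hn : X.E (fun x => b (X.neg x)) = X.E b := E_equiv _ _
  have hn2 : X.E (fun x => b (X.neg x) * X.s x) = - X.E (fun x => b x * X.s x) := by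
    rw [← E_equiv X.neg (fun x => b x * X.s x), ← E_neg]
    exact E_congr fun x => by rw [s_neg]; ring
  refine ⟨X.prod bit, fun q : X.Ω × Bool => if q.2 then - b (X.neg q.1) else b q.1, D + 1,
    X.E (fun x => b x * X.s x) + X.E b, ⟨?_, ?_, ?_, ?_⟩, by omega, ?_⟩
  · refine ((hl.fst.mul (bit_low (fun z => (1 + sg z) / 2)).snd).sub
      (hl.neg.fst.mul (bit_low (fun z => (1 - sg z) / 2)).snd)).congr ?_
    rintro ⟨x, z⟩
    cases z <;> simp [sg]
  · rintro ⟨x, z⟩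
    cases z
    · simpa using hb x
    · rcases hb (X.neg x) with a | a <;> simp [a]
  · rw [E_prod', bit_E]
    simp [E_neg, hn]
  · rw [E_prod', bit_E]
    simp only [prod_s, bit_s, sg, if_true, mul_add, E_add, neg_mul, E_neg, hn2, mul_neg, mul_one,
      neg_neg, hn, Bool.false_eq_true, if_false]
    ring
  · have a1 : -1 ≤ X.E b := by
      have := E_mono (X := X) (f := fun _ => -1) (g := b) fun x => by
        rcases hb x with a | a <;> simp [a]
      rwa [E_const] at this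
    have a2 : 1 ≤ Real.sqrt D := Real.one_le_sqrt.2 (by exact_mod_cast hD)
    have a3 : Real.sqrt ((D + 1 : ℕ) : ℝ) ≤ 2 * Real.sqrt D := by
      rw [Real.sqrt_le_left (by positivity), mul_pow, Real.sq_sqrt (Nat.cast_nonneg _)]
      have : (1 : ℝ) ≤ D := by exact_mod_cast hD
      push_cast; linarith
    linarith

end Sp

theorem poly_bound : ∃ ε : ℝ, 0 < ε ∧ ∃ c : ℝ, 0 < c ∧ ∀ d : ℕ, 1 ≤ d →
    ∃ n : ℕ, 1 ≤ n ∧ ∃ f : (Fin n → Bool) → ℝ, IsBoolean f ∧ deg f ≤ d ∧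
      c * (d : ℝ) ^ (1 / 2 + ε) ≤ ∑ i, fourier f {i} := by
  obtain ⟨X, y, D, L, hy, hD, hL⟩ := Sp.exists_bal
  have hD1 : (1 : ℝ) < D := by exact_mod_cast hD
  have hL0 : 0 < L := lt_of_le_of_lt (Real.sqrt_nonneg _) hL
  have hα : 1 / 2 < Real.logb D L := by
    rw [Real.lt_logb_iff_rpow_lt hD1 hL0, ← Real.sqrt_eq_rpow]; exact hL
  refine ⟨Real.logb D L - 1 / 2, by linarith, 1 / L, by positivity, fun d hd => ?_⟩
  obtain ⟨Y, g, hg⟩ := hy.pow (Nat.log D d)
  obtain ⟨n, hn, f, hf, hdeg, hsum⟩ := Sp.transport Y g _ hg.low hg.bool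
    (by rw [hg.corr]; positivity)
  refine ⟨n, hn, f, hf, hdeg.trans (Nat.pow_log_le_self D (by omega)), ?_⟩
  rw [hsum, hg.corr, add_sub_cancel, one_div, ← div_eq_inv_mul, div_le_iff₀ hL0, ← pow_succ]
  have h1 : (d : ℝ) ≤ (D : ℝ) ^ (Nat.log D d + 1) := by
    exact_mod_cast (Nat.lt_pow_succ_log_self (by omega) d).le
  calc (d : ℝ) ^ Real.logb D L ≤ ((D : ℝ) ^ (Nat.log D d + 1)) ^ Real.logb D L :=
        Real.rpow_le_rpow (Nat.cast_nonneg _) h1 (by linarith)
    _ = ((D : ℝ) ^ Real.logb D L) ^ (Nat.log D d + 1) := by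
        rw [← Real.rpow_natCast, ← Real.rpow_natCast, ← Real.rpow_mul (by linarith),
          ← Real.rpow_mul (by linarith), mul_comm]
    _ = _ := by rw [Real.rpow_logb (by linarith) hD1.ne' hL0]

end

end Vale.Agent.P047
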