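import Vale.Agent.P047.Defs

namespace Vale.Agent.P047

open Classical

noncomputable section

/-- A finite type identified with a discrete cube. -/
structure Sp where
  Ω : Type
  ι : Type
  [fι : Fintype ι]
  [fΩ : Fintype Ω]
  e : Ω ≃ (ι → Bool)

attribute [instance] Sp.fι Sp.fΩ

namespace Sp

variable (X Y : Sp)

instance : Nonempty X.Ω := ⟨X.e.symm fun _ => true⟩

def E (f : X.Ω → ℝ) : ℝ := (∑ x, f x) / Fintype.card X.Ω

def s (x : X.Ω) : ℝ := ∑ i, sg (X.e x i)

def Junta (D : ℕ) (f : X.Ω → ℝ) : Prop :=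
  ∃ T : Finset X.ι, T.card ≤ D ∧ ∀ x y, (∀ i ∈ T, X.e x i = X.e y i) → f x = f y

def Low (D : ℕ) (f : X.Ω → ℝ) : Prop := f ∈ Submodule.span ℝ {g | X.Junta D g}

lemma card_pos : (0 : ℝ) < Fintype.card X.Ω := by exact_mod_cast Fintype.card_pos

variable {X Y}

lemma E_add (f g : X.Ω → ℝ) : X.E (fun x => f x + g x) = X.E f + X.E g := by
  simp only [E, Finset.sum_add_distrib, add_div]

lemma E_sub (f g : X.Ω → ℝ) : X.E (fun x => f x - g x) = X.E f - X.E g := by
  simp only [E, Finset.sum_sub_distrib, sub_div]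

lemma E_cmul (c : ℝ) (f : X.Ω → ℝ) : X.E (fun x => c * f x) = c * X.E f := by
  simp only [E, ← Finset.mul_sum, mul_div_assoc]

lemma E_mulc (c : ℝ) (f : X.Ω → ℝ) : X.E (fun x => f x * c) = X.E f * c := by
  simp only [mul_comm _ c, E_cmul]

lemma E_neg (f : X.Ω → ℝ) : X.E (fun x => - f x) = - X.E f := by
  simp only [E, Finset.sum_neg_distrib, neg_div]

lemma E_const (c : ℝ) : X.E (fun _ => c) = c := by
  have := X.card_pos
  simp only [E, Finset.sum_const, Finset.card_univ, nsmul_eq_mul]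
  field_simp

lemma E_sum {α : Type*} (t : Finset α) (f : α → X.Ω → ℝ) :
    X.E (fun x => ∑ a ∈ t, f a x) = ∑ a ∈ t, X.E (f a) := by
  simp only [E]
  rw [Finset.sum_comm, Finset.sum_div]

lemma E_mono {f g : X.Ω → ℝ} (h : ∀ x, f x ≤ g x) : X.E f ≤ X.E g :=
  div_le_div_of_nonneg_right (Finset.sum_le_sum fun x _ => h x) X.card_pos.le

lemma E_congr {f g : X.Ω → ℝ} (h : ∀ x, f x = g x) : X.E f = X.E g := by
  rw [show f = g from funext h]

lemma E_nonneg {f : X.Ω → ℝ} (h : ∀ x, 0 ≤ f x) : 0 ≤ X.E f := by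
  have := E_mono (X := X) (f := fun _ => 0) h
  rwa [E_const] at this

lemma E_zero {f : X.Ω → ℝ} (h : ∀ x, f x = 0) : X.E f = 0 := by
  rw [E_congr h, E_const]

lemma E_equiv (φ : X.Ω ≃ X.Ω) (f : X.Ω → ℝ) : X.E (fun x => f (φ x)) = X.E f := by
  simp only [E, Equiv.sum_comp φ f]

lemma Low.add {D : ℕ} {f g : X.Ω → ℝ} (hf : X.Low D f) (hg : X.Low D g) :
    X.Low D (fun x => f x + g x) := Submodule.add_mem _ hf hg

lemma Low.sub {D : ℕ} {f g : X.Ω → ℝ} (hf : X.Low D f) (hg : X.Low D g) :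
    X.Low D (fun x => f x - g x) := Submodule.sub_mem _ hf hg

lemma Low.cmul {D : ℕ} {f : X.Ω → ℝ} (c : ℝ) (hf : X.Low D f) :
    X.Low D (fun x => c * f x) := Submodule.smul_mem _ c hf

lemma Low.congr {D : ℕ} {f g : X.Ω → ℝ} (hf : X.Low D f) (h : ∀ x, g x = f x) : X.Low D g := by
  rw [show g = f from funext h]; exact hf

lemma Low.of_junta {D : ℕ} {f : X.Ω → ℝ} (hf : X.Junta D f) : X.Low D f :=
  Submodule.subset_span hf

lemma Low.const (D : ℕ) (c : ℝ) : X.Low D (fun _ => c) :=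
  Low.of_junta ⟨∅, by simp, fun _ _ _ => rfl⟩

lemma Low.sum {D : ℕ} {α : Type*} (t : Finset α) {f : α → X.Ω → ℝ} (h : ∀ a ∈ t, X.Low D (f a)) :
    X.Low D (fun x => ∑ a ∈ t, f a x) := by
  have := Submodule.sum_mem (Submodule.span ℝ {g | X.Junta D g}) h
  exact Low.congr this (fun x => by simp)

lemma Low.mono {D D' : ℕ} {f : X.Ω → ℝ} (hf : X.Low D f) (h : D ≤ D') : X.Low D' f :=
  Submodule.span_mono (by rintro g ⟨T, hT, hg⟩; exact ⟨T, hT.trans h, hg⟩) hf

lemma Low.mul {D D' : ℕ} {f g : X.Ω → ℝ} (hf : X.Low D f) (hg : X.Low D' g) :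
    X.Low (D + D') (fun x => f x * g x) := by
  induction hf using Submodule.span_induction with
  | mem f hf =>
    induction hg using Submodule.span_induction with
    | mem g hg =>
      obtain ⟨T, hT, h1⟩ := hf
      obtain ⟨T', hT', h2⟩ := hg
      refine Low.of_junta ⟨T ∪ T', (Finset.card_union_le _ _).trans (add_le_add hT hT'), ?_⟩
      intro x y hxy
      show f x * g x = f y * g y
      rw [h1 x y fun i hi => hxy i (Finset.mem_union_left _ hi),
        h2 x y fun i hi => hxy i (Finset.mem_union_right _ hi)]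
    | zero => exact (Low.const _ 0).congr (fun x => by simp)
    | add g g' _ _ h1 h2 => exact (h1.add h2).congr (fun x => by simp [mul_add])
    | smul c g _ h1 => exact (h1.cmul c).congr (fun x => by simp [mul_left_comm])
  | zero => exact (Low.const _ 0).congr (fun x => by simp)
  | add f f' _ _ h1 h2 => exact (h1.add h2).congr (fun x => by simp [add_mul])
  | smul c f _ h1 => exact (h1.cmul c).congr (fun x => by simp [mul_assoc])

lemma Low.prod {D : ℕ} {α : Type*} (t : Finset α) {f : α → X.Ω → ℝ}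
    (h : ∀ a ∈ t, X.Low D (f a)) : X.Low (t.card * D) (fun x => ∏ a ∈ t, f a x) := by
  induction t using Finset.induction_on with
  | empty => exact (Low.const _ 1).congr (fun x => by simp)
  | insert a t ha ih =>
    have h1 := (h a (Finset.mem_insert_self _ _)).mul
      (ih fun b hb => h b (Finset.mem_insert_of_mem hb))
    rw [Finset.card_insert_of_notMem ha]
    refine (h1.mono (le_of_eq (by ring))).congr (fun x => ?_)
    rw [Finset.prod_insert ha]

lemma Low.pull {D : ℕ} {f : X.Ω → ℝ} (φ : Y.Ω → X.Ω) (g : X.ι → Y.ι)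
    (hφ : ∀ y y' i, Y.e y (g i) = Y.e y' (g i) → X.e (φ y) i = X.e (φ y') i)
    (hf : X.Low D f) : Y.Low D (fun y => f (φ y)) := by
  induction hf using Submodule.span_induction with
  | mem f hf =>
    obtain ⟨T, hT, h1⟩ := hf
    refine Low.of_junta ⟨T.image g, Finset.card_image_le.trans hT, fun y y' hy => ?_⟩
    exact h1 _ _ fun i hi => hφ y y' i (hy _ (Finset.mem_image_of_mem g hi))
  | zero => exact (Low.const _ 0).congr (fun x => by simp)
  | add f f' _ _ h1 h2 => exact (h1.add h2).congr (fun x => by simp)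
  | smul c f _ h1 => exact (h1.cmul c).congr (fun x => by simp)

/-! ### negation -/

def neg (X : Sp) : X.Ω ≃ X.Ω where
  toFun x := X.e.symm fun i => !(X.e x i)
  invFun x := X.e.symm fun i => !(X.e x i)
  left_inv x := by simp
  right_inv x := by simp

lemma sg_not (b : Bool) : sg (!b) = - sg b := by cases b <;> simp [sg]

lemma sg_sq (b : Bool) : sg b ^ 2 = 1 := by cases b <;> simp [sg]

lemma s_neg (x : X.Ω) : X.s (X.neg x) = - X.s x := by
  simp [s, neg, sg_not]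

lemma E_s : X.E X.s = 0 := by
  have h := E_equiv X.neg X.s
  simp only [s_neg, E_neg] at h
  linarith

lemma Low.neg {D : ℕ} {f : X.Ω → ℝ} (hf : X.Low D f) : X.Low D (fun x => f (X.neg x)) := by
  refine hf.pull X.neg id (fun y y' i h => ?_)
  have h' : X.e y i = X.e y' i := h
  simp [Sp.neg, h']

/-! ### binary products -/

@[reducible] def prod (X Y : Sp) : Sp where
  Ω := X.Ω × Y.Ω
  ι := X.ι ⊕ Y.ι
  e := (X.e.prodCongr Y.e).trans (Equiv.sumArrowEquivProdArrow _ _ _).symm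

lemma prod_s (z : X.Ω × Y.Ω) : (X.prod Y).s z = X.s z.1 + Y.s z.2 := by
  show ∑ i : X.ι ⊕ Y.ι, sg ((X.prod Y).e z i) = _
  rw [Fintype.sum_sum_type]
  rfl

lemma Low.fst {D : ℕ} {f : X.Ω → ℝ} (hf : X.Low D f) :
    (X.prod Y).Low D (fun z : X.Ω × Y.Ω => f z.1) :=
  hf.pull (Y := X.prod Y) Prod.fst Sum.inl (fun _ _ _ h => h)

lemma Low.snd {D : ℕ} {f : Y.Ω → ℝ} (hf : Y.Low D f) :
    (X.prod Y).Low D (fun z : X.Ω × Y.Ω => f z.2) :=
  hf.pull (Y := X.prod Y) Prod.snd Sum.inr (fun _ _ _ h => h)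

lemma E_prod (f : X.Ω × Y.Ω → ℝ) :
    (X.prod Y).E f = X.E fun x => Y.E fun y => f (x, y) := by
  have h1 := X.card_pos
  have h2 := Y.card_pos
  show (∑ z : X.Ω × Y.Ω, f z) / (Fintype.card (X.Ω × Y.Ω) : ℝ) = _
  simp only [E, Fintype.sum_prod_type, Fintype.card_prod, Nat.cast_mul, ← Finset.sum_div]
  field_simp

lemma E_prod' (f : X.Ω × Y.Ω → ℝ) :
    (X.prod Y).E f = Y.E fun y => X.E fun x => f (x, y) := by
  have h1 := X.card_pos
  have h2 := Y.card_pos
  show (∑ z : X.Ω × Y.Ω, f z) / (Fintype.card (X.Ω × Y.Ω) : ℝ) = _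
  simp only [E, Fintype.sum_prod_type_right, Fintype.card_prod, Nat.cast_mul, ← Finset.sum_div]
  field_simp

lemma E_prod_mul (f : X.Ω → ℝ) (g : Y.Ω → ℝ) :
    (X.prod Y).E (fun z : X.Ω × Y.Ω => f z.1 * g z.2) = X.E f * Y.E g := by
  rw [E_prod]
  simp only [E_cmul, E_mulc]

lemma E_fst (f : X.Ω → ℝ) : (X.prod Y).E (fun z : X.Ω × Y.Ω => f z.1) = X.E f := by
  rw [E_prod]; simp only [E_const]

lemma E_snd (f : Y.Ω → ℝ) : (X.prod Y).E (fun z : X.Ω × Y.Ω => f z.2) = Y.E f := by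
  rw [E_prod']; simp only [E_const]

lemma low_prod {Λ M : Type} {D D' : ℕ} (l : X.Ω → Λ) (m : Y.Ω → M) (φ : X.Ω → ℝ) (ψ : Y.Ω → ℝ)
    (h1 : ∀ G : Λ → ℝ, X.Low D (fun x => G (l x) * φ x))
    (h2 : ∀ G : M → ℝ, Y.Low D' (fun y => G (m y) * ψ y)) (G : Λ → M → ℝ) :
    (X.prod Y).Low (D + D')
      (fun z : X.Ω × Y.Ω => G (l z.1) (m z.2) * (φ z.1 * ψ z.2)) := by
  have h := Low.sum (X := X.prod Y) (Finset.univ.image l) (fun v _ =>
    ((h1 (fun w => if w = v then 1 else 0)).fst (Y := Y)).mul ((h2 (G v)).snd (X := X)))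
  refine h.congr (fun z => ?_)
  rw [Finset.sum_eq_single (l z.1)]
  · simp; ring
  · intro b _ hb; simp [Ne.symm hb]
  · intro hn; exact absurd (Finset.mem_image_of_mem l (Finset.mem_univ _)) hn

/-! ### powers -/

@[reducible] def pi (κ : Type) [Fintype κ] (X : Sp) : Sp where
  Ω := κ → X.Ω
  ι := κ × X.ι
  e := (Equiv.piCongrRight fun _ => X.e).trans (Equiv.curry _ _ _).symm

variable {κ : Type} [Fintype κ]

lemma pi_s (w : κ → X.Ω) : (pi κ X).s w = ∑ j, X.s (w j) := by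
  show ∑ i : κ × X.ι, sg ((pi κ X).e w i) = _
  rw [Fintype.sum_prod_type]
  rfl

lemma Low.eval {D : ℕ} {f : X.Ω → ℝ} (hf : X.Low D f) (j : κ) :
    (pi κ X).Low D (fun w : κ → X.Ω => f (w j)) :=
  hf.pull (Y := pi κ X) (fun w => w j) (fun i => (j, i)) (fun _ _ _ h => h)

lemma E_pi_prod (f : κ → X.Ω → ℝ) :
    (pi κ X).E (fun w : κ → X.Ω => ∏ j, f j (w j)) = ∏ j, X.E (f j) := by
  show (∑ w : κ → X.Ω, ∏ j, f j (w j)) / (Fintype.card (κ → X.Ω) : ℝ) = _
  simp only [E, Finset.prod_div_distrib, Finset.prod_const, Finset.card_univ]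
  rw [Fintype.prod_sum]
  congr 1
  simp

/-! ### a single bit -/

@[reducible] def bit : Sp where
  Ω := Bool
  ι := Unit
  e := (Equiv.funUnique Unit Bool).symm

lemma bit_s (b : Bool) : bit.s b = sg b := by
  show ∑ i : Unit, sg (bit.e b i) = _
  rw [Fintype.sum_unique]
  rfl

lemma bit_low (f : Bool → ℝ) : bit.Low 1 f :=
  Low.of_junta ⟨Finset.univ, by show Fintype.card Unit ≤ 1; simp, fun x y h => by
    have : x = y := h () (Finset.mem_univ _)
    rw [this]⟩

lemma bit_E (f : Bool → ℝ) : bit.E f = (f true + f false) / 2 := by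
  show (∑ b : Bool, f b) / (Fintype.card Bool : ℝ) = _
  simp

end Sp

end

end Vale.Agent.P047
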