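import Vale.Agent.P047.Nice

namespace Vale.Agent.P047

open Classical

noncomputable section

namespace Sp

variable {X : Sp} {κ : Type} [Fintype κ]

/-- The predictor of the line swap construction. -/
def swapU (A : κ → ℝ → Prop) (c : ℝ) (j : κ) (t : ℝ) (y : κ → ℝ) : ℝ :=
  if ∀ i, A i (y i) then ∑ i, y i
  else if ∀ i ∈ Finset.univ.erase j, A i (y i) then c else t + ∑ i ∈ Finset.univ.erase j, y i

lemma swap_low {z : X.Ω → ℝ} {D : ℕ} (hl : ∀ F : ℝ → ℝ, X.Low D (fun x => F (z x)))
    (col : ℝ → κ) (A : κ → ℝ → Prop) (c : ℝ) (F : ℝ → ℝ) :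
    (X.prod (pi κ X)).Low (Fintype.card κ * D) (fun q : X.Ω × (κ → X.Ω) =>
      F (swapU A c (col (z q.1)) (z q.1) (fun i => z (q.2 i)))) := by
  have h1 : ∀ j : κ, (X.prod (pi κ X)).Low (Fintype.card κ * D) (fun q : X.Ω × (κ → X.Ω) =>
      if col (z q.1) = j then (if ∀ i ∈ Finset.univ.erase j, A i (z (q.2 i)) then F c else
        F (z q.1 + ∑ i ∈ Finset.univ.erase j, z (q.2 i))) else 0) := by
    intro j
    have := low_prod' (X := X) (Y := pi κ X) z
      (fun w : κ → X.Ω => fun i => if i ∈ Finset.univ.erase j then z (w i) else 0) hl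
      (fun G => piLow hl (Finset.univ.erase j) G)
      (fun t y => if col t = j then (if ∀ i ∈ Finset.univ.erase j, A i (y i) then F c else
        F (t + ∑ i ∈ Finset.univ.erase j, y i)) else 0)
    refine (this.mono (le_of_eq ?_)).congr (fun q => ?_)
    · rw [Finset.card_erase_of_mem (Finset.mem_univ j), Finset.card_univ]
      have : 0 < Fintype.card κ := Fintype.card_pos_iff.2 ⟨j⟩
      obtain ⟨n, hn⟩ := Nat.exists_eq_succ_of_ne_zero this.ne'
      rw [hn]; simp; ring
    · have e1 : (∀ i ∈ Finset.univ.erase j, A i (if i ∈ Finset.univ.erase j then z (q.2 i) else 0))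
          ↔ ∀ i ∈ Finset.univ.erase j, A i (z (q.2 i)) :=
        forall₂_congr fun i hi => by rw [if_pos hi]
      have e2 : ∑ i ∈ Finset.univ.erase j, (if i ∈ Finset.univ.erase j then z (q.2 i) else 0) =
          ∑ i ∈ Finset.univ.erase j, z (q.2 i) := Finset.sum_congr rfl fun i hi => by rw [if_pos hi]
      simp only [e1, e2]
  have h2 := (piLow_univ (κ := κ) hl
    (fun y => if ∀ i, A i (y i) then F (∑ i, y i) - F c else 0)).snd (X := X)
  refine ((Low.sum Finset.univ fun j _ => h1 j).add h2).congr (fun q => ?_)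
  rw [Finset.sum_ite_eq, if_pos (Finset.mem_univ _)]
  unfold swapU
  by_cases hG : ∀ i, A i (z (q.2 i))
  · have hH : ∀ i ∈ Finset.univ.erase (col (z q.1)), A i (z (q.2 i)) := fun i _ => hG i
    rw [if_pos hG, if_pos hG, if_pos hH]; ring
  · rw [if_neg hG, if_neg hG, add_zero]
    split_ifs <;> rfl

lemma swap_inner {z : X.Ω → ℝ} (h0 : X.E z = 0) (h1 : X.E (fun x => z x ^ 2) = 1)
    (A : κ → ℝ → Prop) (a p : κ → ℝ) (δ v : ℝ) (hv : 0 ≤ v) (hp0 : ∀ i, 0 < p i)
    (hp : ∀ i, X.E (fun x => if A i (z x) then 1 else 0) = p i)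
    (ha : ∀ i, X.E (fun x => (if A i (z x) then 1 else 0) * (z x - a i)) = 0)
    (hr : ∀ i, X.E (fun x => (if A i (z x) then 1 else 0) * (z x - a i) ^ 2) ≤ v * p i)
    (j : κ) (t : ℝ) :
    t ^ 2 + Fintype.card κ - 1 + (∏ i, p i) * (2 * t * δ + δ ^ 2 -
      ((t - a j + δ) ^ 2 + Fintype.card κ * v) / p j) ≤
    (pi κ X).E (fun w : κ → X.Ω =>
      2 * (swapU A (∑ i, a i - δ) j t (fun i => z (w i)) * (t + ∑ i, z (w i))) -
        swapU A (∑ i, a i - δ) j t (fun i => z (w i)) ^ 2) := by
  set r : κ → ℝ := fun i =>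
    X.E (fun x => (if A i (z x) then 1 else 0) * (z x - a i) ^ 2) / p i with hrdef
  have hr0 : ∀ i, 0 ≤ r i := fun i => div_nonneg (E_nonneg fun x =>
    mul_nonneg (by split_ifs <;> norm_num) (sq_nonneg _)) (hp0 i).le
  have hrv : ∀ i, r i ≤ v := fun i => by rw [hrdef, div_le_iff₀ (hp0 i)]; exact hr i
  have hr2 : ∀ i, X.E (fun x => (if A i (z x) then 1 else 0) * (z x - a i) ^ 2) = r i * p i :=
    fun i => by rw [hrdef, div_mul_cancel₀ _ (hp0 i).ne']
  set P := ∏ i, p i with hP
  have hP0 : 0 < P := Finset.prod_pos fun i _ => hp0 i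
  have hPj : ∏ i, (if i = j then 1 else p i) = P / p j := by
    rw [eq_div_iff (hp0 j).ne', hP, ← Finset.mul_prod_erase Finset.univ p (Finset.mem_univ j),
      ← Finset.mul_prod_erase Finset.univ _ (Finset.mem_univ j), if_pos rfl, one_mul, mul_comm]
    congr 1
    exact Finset.prod_congr rfl fun i hi => if_neg (Finset.ne_of_mem_erase hi)
  have m1 := pi_moment (X := X) (κ := κ) (fun _ _ => 1) (fun _ => z) (fun _ => 1) (fun _ => 1) t
    (fun _ => E_const _) (fun _ => by simpa using h0) (fun _ => by simpa using h1)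
  have m2 := E_eval (X := X) (fun x => z x ^ 2) j
  have m3 := pi_moment (X := X) (κ := κ)
    (fun i x => if i = j then 1 else if A i (z x) then 1 else 0)
    (fun i x => if i = j then z x else 0) (fun i => if i = j then 1 else p i)
    (fun i => if i = j then 1 else 0) 0
    (fun i => by by_cases h : i = j <;> simp [h, E_const, hp])
    (fun i => by by_cases h : i = j <;> simp [h, E_const, h0])
    (fun i => by by_cases h : i = j <;> simp [h, E_const, h1])
  have m4 := pi_moment (X := X) (κ := κ)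
    (fun i x => if i = j then 1 else if A i (z x) then 1 else 0)
    (fun i x => if i = j then z x else z x - a i) (fun i => if i = j then 1 else p i)
    (fun i => if i = j then 1 else r i) (t - a j + δ)
    (fun i => by by_cases h : i = j <;> simp [h, E_const, hp])
    (fun i => by
      by_cases h : i = j
      · simp [h, h0]
      · simp only [h, if_false]; exact ha i)
    (fun i => by
      by_cases h : i = j
      · simp [h, h1]
      · simp only [h, if_false]; exact hr2 i)
  have m5 := pi_moment (X := X) (κ := κ) (fun i x => if A i (z x) then 1 else 0)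
    (fun i x => z x - a i) p r (t + δ) hp ha hr2
  have m6 : (pi κ X).E (fun w : κ → X.Ω => ∏ i, if A i (z (w i)) then (1 : ℝ) else 0) = P := by
    rw [E_pi_prod (X := X) (fun i x => if A i (z x) then (1 : ℝ) else 0)]
    simp only [hp, hP]
  rw [hPj] at m3 m4
  have e : ∀ w : κ → X.Ω,
      2 * (swapU A (∑ i, a i - δ) j t (fun i => z (w i)) * (t + ∑ i, z (w i))) -
        swapU A (∑ i, a i - δ) j t (fun i => z (w i)) ^ 2 =
      (∏ _i : κ, (1 : ℝ)) * (t + ∑ i, z (w i)) ^ 2 - z (w j) ^ 2 +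
      (∏ i, if i = j then (1 : ℝ) else if A i (z (w i)) then 1 else 0) *
        (0 + ∑ i, if i = j then z (w i) else 0) ^ 2 -
      (∏ i, if i = j then (1 : ℝ) else if A i (z (w i)) then 1 else 0) *
        (t - a j + δ + ∑ i, if i = j then z (w i) else z (w i) - a i) ^ 2 +
      (∏ i, if A i (z (w i)) then (1 : ℝ) else 0) * (t + δ + ∑ i, (z (w i) - a i)) ^ 2 -
      t ^ 2 * ∏ i, if A i (z (w i)) then (1 : ℝ) else 0 := by
    intro w
    have s1 : ∑ i, (if i = j then z (w i) else 0) = z (w j) := by simp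
    have s2 : ∑ i, (if i = j then z (w i) else z (w i) - a i) =
        ∑ i, z (w i) - ∑ i, a i + a j := by
      have : ∀ i, (if i = j then z (w i) else z (w i) - a i) =
          z (w i) - a i + if i = j then a i else 0 := fun i => by split_ifs <;> ring
      simp [this, Finset.sum_add_distrib]
    have s3 : ∑ i ∈ Finset.univ.erase j, z (w i) = ∑ i, z (w i) - z (w j) := by
      rw [← Finset.add_sum_erase Finset.univ _ (Finset.mem_univ j)]; ring
    have s4 : (∏ i, if A i (z (w i)) then (1 : ℝ) else 0) =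
        if ∀ i, A i (z (w i)) then 1 else 0 := by
      split_ifs with h
      · exact Finset.prod_eq_one fun i _ => if_pos (h i)
      · push Not at h
        obtain ⟨i, hi⟩ := h
        exact Finset.prod_eq_zero (Finset.mem_univ i) (if_neg hi)
    have s5 : (∏ i, if i = j then (1 : ℝ) else if A i (z (w i)) then 1 else 0) =
        if ∀ i ∈ Finset.univ.erase j, A i (z (w i)) then 1 else 0 := by
      split_ifs with h
      · refine Finset.prod_eq_one fun i _ => ?_
        by_cases hi : i = j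
        · rw [if_pos hi]
        · rw [if_neg hi, if_pos (h i (by simp [hi]))]
      · push Not at h
        obtain ⟨i, hi, hi'⟩ := h
        exact Finset.prod_eq_zero (Finset.mem_univ i)
          (by rw [if_neg (Finset.ne_of_mem_erase hi), if_neg hi'])
    rw [s1, s2, s4, s5, Finset.sum_sub_distrib, Finset.prod_const_one]
    unfold swapU
    simp only [s3]
    by_cases hG : ∀ i, A i (z (w i))
    · have hH : ∀ i ∈ Finset.univ.erase j, A i (z (w i)) := fun i _ => hG i
      simp only [if_pos hG, if_pos hH]; ring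
    · simp only [if_neg hG]
      split_ifs <;> ring
  rw [E_congr (X := pi κ X) e, E_sub, E_add, E_sub, E_add, E_sub, m1, m2, m3, m4, m5, E_cmul, m6,
    h1, ← hP]
  have t1 : ∑ i, (if i = j then 1 else r i) ≤ 1 + Fintype.card κ * v := by
    calc _ ≤ ∑ i : κ, ((if i = j then 1 else 0) + v) := Finset.sum_le_sum fun i _ => by
          have := hrv i
          split_ifs <;> linarith
      _ = _ := by simp [Finset.sum_add_distrib]
  have t2 : 0 ≤ ∑ i, r i := Finset.sum_nonneg fun i _ => hr0 i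
  have t3 : 0 < P / p j := div_pos hP0 (hp0 j)
  have t4 := mul_le_mul_of_nonneg_left t1 t3.le
  have t5 := mul_nonneg hP0.le t2
  have t6 : P * (((t - a j + δ) ^ 2 + Fintype.card κ * v) / p j) =
      P / p j * ((t - a j + δ) ^ 2 + Fintype.card κ * v) := by ring
  simp only [Finset.prod_const_one, Finset.sum_const, Finset.card_univ, nsmul_eq_mul, mul_one,
    Finset.sum_ite_eq', Finset.mem_univ, if_true]
  nlinarith

lemma swap {h : X.Ω → ℝ} {D : ℕ} (hg : Gad X h D) {σ : ℝ} (hσ : 0 < σ)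
    (h1 : X.E (fun x => (h x / σ) ^ 2) = 1) (col : ℝ → κ)
    (A : κ → ℝ → Prop) (a p : κ → ℝ) (δ v : ℝ) (hv : 0 ≤ v) (hp0 : ∀ i, 0 < p i)
    (hp : ∀ i, X.E (fun x => if A i (h x / σ) then 1 else 0) = p i)
    (ha : ∀ i, X.E (fun x => (if A i (h x / σ) then 1 else 0) * (h x / σ - a i)) = 0)
    (hr : ∀ i, X.E (fun x => (if A i (h x / σ) then 1 else 0) * (h x / σ - a i) ^ 2) ≤ v * p i) :
    ∃ (Y : Sp) (g : Y.Ω → ℝ), Gad Y g (Fintype.card κ * D) ∧
      σ ^ 2 * (Fintype.card κ + (∏ i, p i) * (δ ^ 2 - X.E (fun x =>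
        ((h x / σ - a (col (h x / σ)) + δ) ^ 2 + Fintype.card κ * v) / p (col (h x / σ))))) ≤
        Y.E (fun y => g y ^ 2) := by
  set z : X.Ω → ℝ := fun x => h x / σ with hz
  have hl : ∀ F : ℝ → ℝ, X.Low D (fun x => F (z x)) := fun F => hg.low (fun t => F (t / σ))
  have hce : ∀ F : ℝ → ℝ, X.E (fun x => F (z x) * X.s x) = X.E (fun x => F (z x) * h x) :=
    fun F => hg.ce (fun t => F (t / σ))
  have h0 : X.E z = 0 := by
    simp only [hz, div_eq_mul_inv]; rw [E_mulc, hg.mean, zero_mul]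
  obtain ⟨g, hG, hI⟩ := condexp (swap_low hl col A (∑ i, a i - δ))
  refine ⟨_, g, hG, le_trans ?_ (hI σ)⟩
  have c1 := ce_prod (X := X) (Y := pi κ X) z (fun w : κ → X.Ω => fun i => z (w i)) h
    (fun w : κ → X.Ω => ∑ j, h (w j)) hce (fun G => piCE hce G)
    (fun t y => swapU A (∑ i, a i - δ) (col t) t y)
  rw [c1]
  have c2 : (X.prod (pi κ X)).E (fun q : X.Ω × (κ → X.Ω) =>
      swapU A (∑ i, a i - δ) (col (z q.1)) (z q.1) (fun i => z (q.2 i)) * (h q.1 + ∑ j, h (q.2 j)))
      = σ * (X.prod (pi κ X)).E (fun q : X.Ω × (κ → X.Ω) =>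
      swapU A (∑ i, a i - δ) (col (z q.1)) (z q.1) (fun i => z (q.2 i)) *
        (z q.1 + ∑ j, z (q.2 j))) := by
    rw [← E_cmul]
    refine E_congr fun q => ?_
    simp only [hz, ← Finset.sum_div]
    field_simp
  rw [c2]
  have c3 := E_mono (X := X) fun x => swap_inner h0 h1 A a p δ v hv hp0 hp ha hr (col (z x)) (z x)
  rw [← E_prod (X := X) (Y := pi κ X) (fun q : X.Ω × (κ → X.Ω) =>
      2 * (swapU A (∑ i, a i - δ) (col (z q.1)) (z q.1) (fun i => z (q.2 i)) *
        (z q.1 + ∑ j, z (q.2 j))) -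
      swapU A (∑ i, a i - δ) (col (z q.1)) (z q.1) (fun i => z (q.2 i)) ^ 2), E_sub, E_cmul,
      E_add, E_sub, E_add, E_const, E_const, E_cmul, E_sub, E_add, E_const, E_mulc, E_cmul, h0, h1]
      at c3
  have := mul_le_mul_of_nonneg_left c3 (sq_nonneg σ)
  nlinarith

end Sp

end

end Vale.Agent.P047
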